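import Vale.Agent.P272.K.Iface

/-! P299, package D0 (Calabi-Yau theorem): interface statements.

The path is `log (det (χ + i∂∂̄u) / det χ) = t u + F + c`, `t ∈ [0,1]`. -/

open scoped Manifold ContDiff ComplexOrder
open Metric

noncomputable section

namespace Vale.Agent.P299.H835

open Vale.Agent.P272.K

/-- `u` is a smooth solution of `log (det (χ + i∂∂̄u) / det χ) = t u + F + c`. -/
structure IsSol {n : ℕ} {X : Type} [TopologicalSpace X] [ChartedSpace (Cm n) X]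
    (χ : Chart n X → Cm n → Matrix (Fin n) (Fin n) ℂ) (F : X → ℝ) (t c : ℝ) (u : X → ℝ) : Prop where
  smooth : SmoothFn (n := n) u
  pos : ∀ e x, At e x → (addH χ u e (e x)).PosDef
  eq : ∀ e x, At e x →
    Real.log (addH χ u e (e x)).det.re - Real.log (χ e (e x)).det.re = t * u x + F x + c

/-- D0-a: the uniform oscillation estimate. -/
def C0Statement (n : ℕ) (X : Type) [TopologicalSpace X] [ChartedSpace (Cm n) X] : Prop :=
  ∀ (χ : Chart n X → Cm n → Matrix (Fin n) (Fin n) ℂ) (_ : IsKahler χ) (B : ℝ), ∃ C : ℝ,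
    ∀ u : X → ℝ, SmoothFn (n := n) u → (∀ e x, At e x → (addH χ u e (e x)).PosDef) →
      (∀ e x, At e x →
        Real.log (addH χ u e (e x)).det.re - Real.log (χ e (e x)).det.re ≤ B) →
      ∀ x y, u x - u y ≤ C

/-- D0-b: the Laplacian estimate, uniform in `t ∈ [0,1]` and `|c|, |u| ≤ M₀`. -/
def C2Statement (n : ℕ) (X : Type) [TopologicalSpace X] [ChartedSpace (Cm n) X] : Prop :=
  ∀ (χ : Chart n X → Cm n → Matrix (Fin n) (Fin n) ℂ) (_ : IsKahler χ) (F : X → ℝ)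
    (_ : SmoothFn (n := n) F) (M₀ : ℝ), ∃ C : ℝ, 0 < C ∧
    ∀ t ∈ Set.Icc (0 : ℝ) 1, ∀ c : ℝ, |c| ≤ M₀ → ∀ u : X → ℝ, (∀ x, |u x| ≤ M₀) →
      IsSol (n := n) χ F t c u →
      ∀ e x, At e x → ((C : ℂ) • addH χ u e (e x) - χ e (e x)).PosSemidef ∧
        ((C : ℂ) • χ e (e x) - addH χ u e (e x)).PosSemidef

/-- D0-c: the local Calabi estimate, uniform in `t ∈ [0,1]`. -/
def CalabiStatement : Prop :=
  ∀ (n : ℕ) (p : Cm n) (r R lam Lam C₀ : ℝ) (_ : 0 < r) (_ : r < R) (_ : 0 < lam), ∃ C : ℝ,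
    ∀ t ∈ Set.Icc (0 : ℝ) 1, ∀ K Θ : Cm n → Matrix (Fin n) (Fin n) ℂ,
      (∀ z ∈ ball p R, ∀ i j, ContDiffAt ℝ ∞ (fun y => K y i j) z) →
      (∀ z ∈ ball p R, (K z).IsHermitian) →
      (∀ z ∈ ball p R, (K z - (lam : ℂ) • (1 : Matrix (Fin n) (Fin n) ℂ)).PosSemidef) →
      (∀ z ∈ ball p R, ((Lam : ℂ) • (1 : Matrix (Fin n) (Fin n) ℂ) - K z).PosSemidef) →
      (∀ z ∈ ball p R, ∀ i j k, dz k (fun y => K y i j) z = dz i (fun y => K y k j) z) →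
      (∀ z ∈ ball p R, cHess (fun y => Real.log (K y).det.re) z = (t : ℂ) • K z + Θ z) →
      (∀ z ∈ ball p R, ∀ i j, ContDiffAt ℝ ∞ (fun y => Θ y i j) z) →
      (∀ z ∈ ball p R, ∀ i j, ‖Θ z i j‖ ≤ C₀) →
      (∀ z ∈ ball p R, ∀ i j k, ‖dz k (fun y => Θ y i j) z‖ ≤ C₀) →
      ∀ z ∈ closedBall p r, ∀ i j k, ‖dz k (fun y => K y i j) z‖ ≤ C

/-- The theorem to be proved (Calabi-Yau). -/
def YauStatement (n : ℕ) (X : Type) [TopologicalSpace X] [ChartedSpace (Cm n) X] : Prop :=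
  ∀ (χ : Chart n X → Cm n → Matrix (Fin n) (Fin n) ℂ) (_ : IsKahler χ) (F : X → ℝ)
    (_ : SmoothFn (n := n) F),
    ∃ (u : X → ℝ) (c : ℝ), SmoothFn (n := n) u ∧ (∀ e x, At e x → (addH χ u e (e x)).PosDef) ∧
      ∀ e x, At e x → Real.log (addH χ u e (e x)).det.re - Real.log (χ e (e x)).det.re = F x + c

end Vale.Agent.P299.H835
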