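import Vale.Agent.P299.H835.Final
import Vale.Agent.P299.H937.C0

/-! P299, package D0: the Calabi-Yau theorem. -/

open scoped Manifold ContDiff ComplexOrder Topology

noncomputable section

namespace Vale.Agent.P299.H835

open Vale.Agent.P272.K

variable {n : ℕ} {X : Type} [TopologicalSpace X] [T2Space X] [CompactSpace X]
  [PreconnectedSpace X] [ChartedSpace (Cm n) X] [IsManifold 𝓘(ℂ, Cm n) ω X]

/-- **The Calabi-Yau theorem**: on a compact connected Kähler manifold `(X, χ)`, for every smooth
`F` there are a smooth `u` and a constant `c` with `χ + i∂∂̄u > 0` and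
`log (det (χ + i∂∂̄u) / det χ) = F + c`. -/
theorem yau : YauStatement n X := yau_of_c0 H937.c0

/-- **Kähler metrics with prescribed Ricci form**: `φ` are the weights of a smooth metric on the
canonical bundle (`|dz₁ ∧ … ∧ dz_n|² = exp (-φ)`), and `log det (χ + i∂∂̄u) = φ + c` in every
chart, so that `Ric(χ + i∂∂̄u) = -i∂∂̄φ`. -/
theorem yauMetric {χ : Chart n X → Cm n → Matrix (Fin n) (Fin n) ℂ} (hχ : IsKahler χ)
    {φ : Chart n X → Cm n → ℝ} (hφ : IsCanonicalMetric φ) :
    ∃ (u : X → ℝ) (c : ℝ), SmoothFn (n := n) u ∧ IsKahler (addH χ u) ∧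
      (∀ e ∈ atlas (Cm n) X, ∀ z ∈ e.target, Real.log (addH χ u e z).det.re = φ e z + c) ∧
      ∀ e x, At e x → cHess (fun y => Real.log (addH χ u e y).det.re) (e x) =
        cHess (φ e) (e x) :=
  yauMetric_of yau hχ hφ

end Vale.Agent.P299.H835
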