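import Vale.Agent.P299.H835.Iface
import Vale.Agent.P272.K.C3.Calabi

/-! P299, package D0-c: the local Calabi estimate for `cHess (log det K) = t K + Θ`, uniform in
`t ∈ [0,1]`. The error term of `K/C3` for `Θ' = Θ + (t - 1) K` differs from the one for `Θ` by
`(1 - t) |θ|²`. -/

set_option linter.unusedSectionVars false
set_option linter.unusedSimpArgs false

open Matrix Finset TopologicalSpace
open scoped ComplexOrder InnerProductSpace ComplexConjugate ContDiff Topology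

noncomputable section

namespace Vale.Agent.P299.H835

open Vale.Agent.P272.K Vale.Agent.P272.K.C3 Vale.Agent.P272.K.P1 Vale.Agent.P272.K.P1.Sm

variable {n : ℕ}

lemma sq_GK {G K B Bi : Mt n ℂ} (h : Sq G K B Bi) : G * K = 1 := by
  rw [h.hG, h.hK]
  have : Bᴴ * B * (Bi * Biᴴ) = Bᴴ * (B * Bi) * Biᴴ := by simp only [Matrix.mul_assoc]
  rw [this, h.BBi, Matrix.mul_one, ← Matrix.conjTranspose_mul, h.BiB, Matrix.conjTranspose_one]

/-- the error term for `T + s K` -/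
lemma err_shift {G K T B Bi : Mt n ℂ} (h : Sq G K B Bi) (θ dT dbT : Fin n → Mt n ℂ) (s : ℂ) :
    err G K (T + s • K) θ (fun i => dT i + s • (θ i * K)) (fun j => dbT j + s • (K * (θ j)ᴴ)) =
      err G K T θ dT dbT - s * pair G K θ (fun j => (θ j)ᴴ) := by
  have hGK := sq_GK h
  have h1 : (fun i => (dT i + s • (θ i * K) - θ i * (T + s • K)) * G) =
      fun i => (dT i - θ i * T) * G := by
    funext i
    congr 1
    rw [Matrix.mul_add, Matrix.mul_smul]
    abel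
  have h2 : (1 : Mt n ℂ) + G * (T + s • K) = (1 + G * T) + s • 1 := by
    rw [Matrix.mul_add, Matrix.mul_smul, hGK]
    abel
  have h3 : (fun j => G * (dbT j + s • (K * (θ j)ᴴ) - (T + s • K) * (θ j)ᴴ)
      - (θ j)ᴴ * (1 + G * (T + s • K)) + (1 + G * (T + s • K)) * (θ j)ᴴ
      - ∑ q, (1 + G * (T + s • K)) q j • (θ q)ᴴ) =
      (fun j => G * (dbT j - T * (θ j)ᴴ)
      - (θ j)ᴴ * (1 + G * T) + (1 + G * T) * (θ j)ᴴ - ∑ q, (1 + G * T) q j • (θ q)ᴴ)
      - s • fun j => (θ j)ᴴ := by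
    funext j
    rw [h2]
    have e1 : G * (dbT j + s • (K * (θ j)ᴴ) - (T + s • K) * (θ j)ᴴ) =
        G * (dbT j - T * (θ j)ᴴ) := by
      congr 1
      rw [Matrix.add_mul, Matrix.smul_mul]
      abel
    have e2 : ∑ q, ((1 + G * T) + s • (1 : Mt n ℂ)) q j • (θ q)ᴴ =
        ∑ q, (1 + G * T) q j • (θ q)ᴴ + s • (θ j)ᴴ := by
      have : ∀ q, ((1 + G * T) + s • (1 : Mt n ℂ)) q j • (θ q)ᴴ =
          (1 + G * T) q j • (θ q)ᴴ + (s * (1 : Mt n ℂ) q j) • (θ q)ᴴ := by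
        intro q
        rw [Matrix.add_apply (1 + G * T), Matrix.smul_apply, add_smul, smul_eq_mul]
      rw [Finset.sum_congr rfl fun q _ => this q, Finset.sum_add_distrib]
      congr 1
      rw [Finset.sum_eq_single j]
      · rw [Matrix.one_apply_eq, mul_one]
      · intro b _ hb
        rw [Matrix.one_apply_ne hb, mul_zero, zero_smul]
      · simp
    rw [e1, e2, Matrix.mul_add, Matrix.add_mul, Matrix.mul_smul, Matrix.smul_mul, Matrix.mul_one,
      Matrix.one_mul, Pi.sub_apply, Pi.smul_apply]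
    abel
  unfold err
  rw [h1, h3, map_sub, map_smul, smul_eq_mul]
  ring

lemma err_shift_bound {G K T B Bi : Mt n ℂ} (h : Sq G K B Bi) (θ dT dbT : Fin n → Mt n ℂ) {s C : ℝ}
    (hs : |s| ≤ 1) (hC : ‖err G K T θ dT dbT‖ ≤ C * (1 + ‖Ph B Bi θ‖ ^ 2)) :
    ‖err G K (T + (s : ℂ) • K) θ (fun i => dT i + (s : ℂ) • (θ i * K))
      (fun j => dbT j + (s : ℂ) • (K * (θ j)ᴴ))‖ ≤ (C + 1) * (1 + ‖Ph B Bi θ‖ ^ 2) := by
  rw [err_shift h, h.pair_eq, inner_self_eq_norm_sq_to_K]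
  refine (norm_sub_le _ _).trans ?_
  have h1 : ‖(s : ℂ) * ((‖Ph B Bi θ‖ : ℂ) ^ 2)‖ ≤ 1 * ‖Ph B Bi θ‖ ^ 2 := by
    rw [norm_mul, norm_pow, Complex.norm_real, Complex.norm_real, Real.norm_eq_abs, norm_norm]
    exact mul_le_mul_of_nonneg_right hs (by positivity)
  have h2 : ‖(s : ℂ) * ((RCLike.ofReal ‖Ph B Bi θ‖ : ℂ) ^ 2)‖ ≤ 1 * ‖Ph B Bi θ‖ ^ 2 := h1
  nlinarith

variable {O : Opens (Cm n)}

/-- **the local Calabi estimate** (D0-c) -/
theorem calabi : CalabiStatement := by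
  have hcut : CutoffStatement := cutoff
  intro n p r R lam Lam C₀ hr hrR hlam
  obtain ⟨β, hβ1, hβL, hβl, hβC⟩ : ∃ β : ℝ, 1 ≤ β ∧ Lam ≤ β ∧ n * (1 / lam) ≤ β ∧ C₀ ≤ β :=
    ⟨max 1 (max Lam (max (n * (1 / lam)) C₀)), le_max_left _ _,
      (le_max_left _ _).trans (le_max_right _ _),
      ((le_max_left _ _).trans (le_max_right _ _)).trans (le_max_right _ _),
      ((le_max_right _ _).trans (le_max_right _ _)).trans (le_max_right _ _)⟩
  have hβ0 : 0 ≤ β := zero_le_one.trans hβ1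
  have hn : (0 : ℝ) ≤ n := Nat.cast_nonneg n
  obtain ⟨C1, hC10, hC1⟩ := error_bound n β hβ1
  obtain ⟨Bd, hB2, hBC, hBβ, hBT, hBL⟩ : ∃ Bd : ℝ, 2 ≤ Bd ∧ C1 + 1 ≤ Bd ∧ β ≤ Bd ∧
      n * β * (n * β) ≤ Bd ∧ n * β * (n * (β + β)) ≤ Bd := by
    refine ⟨2 + C1 + β + n * β * (n * β) + n * β * (n * (β + β)), ?_, ?_, ?_, ?_, ?_⟩ <;>
    · have h1 : 0 ≤ n * β * (n * β) := by positivity
      have h2 : 0 ≤ n * β * (n * (β + β)) := by positivity
      linarith
  obtain ⟨Cc, hCc⟩ := hcut n p r R Bd hr hrR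
  refine ⟨n * ((n * (β * (n * (n * (β * (1 + |Cc|)) * β)))) * β), ?_⟩
  intro t ht K Θ hKs hKh hKl hKL hKk hR hTs hT hdT z hz i j k
  let O : Opens (Cm n) := ⟨Metric.ball p R, Metric.isOpen_ball⟩
  have hpd : ∀ x ∈ O, (K x).PosDef := by
    intro x hx
    have h1 := hKl x hx
    have h2 : ((lam : ℂ) • (1 : Matrix (Fin n) (Fin n) ℂ)).PosDef :=
      Matrix.PosDef.one.smul (by exact_mod_cast hlam)
    have h3 := h2.add_posSemidef h1
    rwa [add_sub_cancel] at h3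
  obtain ⟨s, hst⟩ : ∃ s : ℝ, s = t - 1 := ⟨_, rfl⟩
  have hs1 : |s| ≤ 1 := by
    rw [hst, abs_le]
    constructor <;> linarith [ht.1, ht.2]
  let Θ' : Cm n → Matrix (Fin n) (Fin n) ℂ := fun z => Θ z + (s : ℂ) • K z
  have hTs' : ∀ i j, ∀ x ∈ O, ContDiffAt ℝ ∞ (fun z => Θ' z i j) x := fun i j x hx =>
    (hTs x hx i j).add (contDiffAt_const.mul (hKs x hx i j))
  have hD : Data O K Θ' :=
    { hKs := fun i j x hx => hKs x hx i j
      hKd := hpd
      hKk := fun x hx i j k => hKk x hx i j k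
      hTs := hTs'
      hR := fun x hx => by
        rw [hR x hx]
        simp only [Θ']
        rw [hst]
        push_cast
        rw [sub_smul, one_smul]
        abel }
  -- `Θ` is Hermitian
  have hTh : ∀ x ∈ O, (Θ' x).IsHermitian := by
    intro x hx
    have h1 := hD.hR x hx
    have h2 : Θ' x = cHess (fun y => Real.log (K y).det.re) x - K x := by rw [h1]; abel
    rw [h2]
    refine (Vale.Agent.P272.K.C2.cHess_isHermitian ?_).sub (hKh x hx)
    have h3 : ContDiffAt ℝ ∞ (fun y => (K y).det) x := C2.MC.det (fun i j => hKs x hx i j)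
    have h4 : ContDiffAt ℝ ∞ (fun y => (K y).det.re) x :=
      Complex.reCLM.contDiff.contDiffAt.comp x h3
    exact (h4.log (hD.det_re_pos hx).ne').of_le (WithTop.coe_le_coe.2 le_top)
  have hTT : hD.TTᴴ = hD.TT := evM_ext fun x => by
    rw [evM_conjTranspose, hD.ev_TT, (hTh x x.2).eq]
  have hdTe : ∀ (x : O) (i p q : Fin n), evM x (mD (der (W O) i) hD.TT) p q =
      dz i (fun y => Θ' y p q) x := by
    intro x i p q
    have : hD.TT p q = Sm.mk (fun z => Θ' z p q) (hD.hTs p q) := by unfold Data.TT; rfl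
    rw [evM_apply, mD_apply, der_apply, W_d, this, ev_d_mk]
  let dT : O → Fin n → Mt n ℂ := fun x i => Matrix.of fun p q => dz i (fun y => Θ y p q) x
  have hdT' : ∀ (x : O) (i : Fin n), EB (dT x i) β := fun x i p q =>
    (hdT x x.2 p q i).trans hβC
  have hdbT' : ∀ (x : O) (i : Fin n), EB (dT x i)ᴴ β := fun x i p q => by
    rw [Matrix.conjTranspose_apply, norm_star]
    exact hdT' x i q p
  have hdK : ∀ (x : O) (k i j : Fin n), dz k (fun y => K y i j) x = (hD.thx x k * K x) i j := by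
    intro x k i j
    have h6 := congrArg (evM x) (hD.kstruct.dK k)
    rw [evM_mul, hD.ev_KK] at h6
    have h7 := congrFun (congrFun h6 i) j
    rw [evM_apply, mD_apply, der_apply, W_d, hD.ev_D_KK] at h7
    rw [h7, ← hD.thx_eq]
  have hdTm : ∀ (x : O) (i : Fin n), evM x (mD (der (W O) i) hD.TT) =
      dT x i + (s : ℂ) • (hD.thx x i * K x) := by
    intro x i
    ext p q
    have d1 : DifferentiableAt ℝ (fun y => Θ y p q) (x : Cm n) :=
      (hTs x x.2 p q).differentiableAt (by simp)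
    have d2 : DifferentiableAt ℝ (fun y => K y p q) (x : Cm n) :=
      (hKs x x.2 p q).differentiableAt (by simp)
    rw [hdTe, Matrix.add_apply, Matrix.smul_apply, ← hdK, smul_eq_mul]
    have e1 : dz i (fun y => Θ' y p q) (x : Cm n) =
        dz i (fun y => Θ y p q) (x : Cm n) + dz i (fun y => (s : ℂ) * K y p q) (x : Cm n) :=
      Vale.Agent.P272.K.dz_add d1 (d2.const_mul _)
    rw [e1, Vale.Agent.P272.K.dz_const_mul (s : ℂ) d2]
    rfl
  have hdbTm : ∀ (x : O) (i : Fin n), evM x (mD (derb (W O) i) hD.TT) =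
      (dT x i)ᴴ + (s : ℂ) • (K x * (hD.thx x i)ᴴ) := by
    intro x i
    have h1 : mD (derb (W O) i) hD.TT = (mD (der (W O) i) hD.TT)ᴴ := by
      conv_lhs => rw [← hTT]
      rw [mD_der, mD_derb, (W O).Db_conjTranspose]
    rw [h1, evM_conjTranspose, hdTm, Matrix.conjTranspose_add, Matrix.conjTranspose_smul,
      Matrix.conjTranspose_mul, (hpd x x.2).isHermitian.eq, Complex.star_def, Complex.conj_ofReal]
  have hsq : ∀ x : O, ∃ B Bi : Mt n ℂ, Sq (K x)⁻¹ (K x) B Bi := fun x => exists_Sq (hpd x x.2)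
  have hKb : ∀ x : O, EB (K x) β ∧ EB (K x)⁻¹ β := fun x => by
    obtain ⟨B, Bi, hs⟩ := hsq x
    obtain ⟨h1, h2⟩ := entries_le hlam (hKl x x.2) (hKL x x.2) hs
    exact ⟨h1.mono hβL, h2.mono hβl⟩
  have hTb : ∀ x : O, EB (Θ x) β := fun x p q => (hT x x.2 p q).trans hβC
  -- the functions
  have hSu : ∀ x : O, ((hD.S x : ℝ) : ℂ) = ev x hD.SS := fun x => by
    obtain ⟨B, Bi, hs⟩ := hsq x
    rw [Data.S, ← ev_apply, hD.ev_SS hs, Complex.ofReal_re]
  have hSn : ∀ (x : O) (B Bi : Mt n ℂ), Sq (K x)⁻¹ (K x) B Bi →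
      hD.S x = ‖Ph B Bi (hD.thx x)‖ ^ 2 := fun x B Bi hs => by
    have h1 := hSu x
    rw [hD.ev_SS hs] at h1
    exact_mod_cast h1
  have hPu : ∀ x : O, (((fn hD.PN x).re : ℝ) : ℂ) = ev x hD.PN := fun x => by
    obtain ⟨B, Bi, hs⟩ := hsq x
    rw [← ev_apply, hD.ev_PN hs, Complex.ofReal_re]
  have hPn : ∀ (x : O) (B Bi : Mt n ℂ), Sq (K x)⁻¹ (K x) B Bi →
      (fn hD.PN x).re = ∑ e, ‖Ph B Bi (∑ a, B e a • hD.Xx x a)‖ ^ 2
      + ∑ e, ‖Ph B Bi (∑ a, conj (B e a) • hD.Yx x a)‖ ^ 2 := fun x B Bi hs => by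
    have h1 := hPu x
    rw [hD.ev_PN hs] at h1
    exact_mod_cast h1
  have htr : ∀ x : O, (((K x).trace.re : ℝ) : ℂ) = ev x hD.KK.trace := fun x => by
    rw [ev_trace, hD.ev_KK]
    apply Complex.ext
    · simp
    · have : star (K x).trace = (K x).trace := by
        rw [← Matrix.trace_conjTranspose, (hpd x x.2).isHermitian.eq]
      have h2 := congrArg Complex.im this
      simp only [Complex.star_def, Complex.conj_im] at h2
      simp only [Complex.ofReal_im]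
      linarith
  have herr : ∀ (x : O) (B Bi : Mt n ℂ), Sq (K x)⁻¹ (K x) B Bi →
      ‖ev x (∑ a, ∑ b, hD.GG b a * d a (db b hD.SS)) - ev x hD.PN‖ ≤ (C1 + 1) * (1 + hD.S x) :=
    fun x B Bi hs => by
      rw [hD.boch_eq x, hSn x B Bi hs]
      have e1 := hC1 _ _ _ B Bi (hD.thx x) (dT x) (fun j => (dT x j)ᴴ) hs (hKb x).2 (hKb x).1
        (hTb x) (hdT' x) (hdbT' x)
      have e2 := err_shift_bound hs (hD.thx x) (dT x) (fun j => (dT x j)ᴴ) hs1 e1
      simp only [hdTm, hdbTm]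
      exact e2
  have hlap : ∀ (x : O) (B Bi : Mt n ℂ), Sq (K x)⁻¹ (K x) B Bi →
      hD.S x - n * β * (n * (β + β)) ≤
        n * β * (ev x (∑ a, ∑ b, hD.GG b a * d a (db b hD.KK.trace))).re := by
    intro x B Bi hs
    have h1 : ∑ a, ∑ b, hD.GG b a * d a (db b hD.KK.trace) = (hD.KK + hD.TT).trace
      + ∑ a, ∑ b, hD.GG b a * (hD.th a * hD.KK * hD.thb b).trace := hD.ric.lap_trace
    obtain ⟨τ, hτ1, hτ2⟩ := hs.trace_ge (hKb x).2 (hD.thx x)
    have hKΘ : K x + Θ' x = (t : ℂ) • K x + Θ x := by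
      simp only [Θ']
      rw [hst]
      push_cast
      rw [sub_smul, one_smul]
      abel
    have h2 : ev x (∑ a, ∑ b, hD.GG b a * d a (db b hD.KK.trace)) =
        ((t : ℂ) • K x + Θ x).trace + (τ : ℂ) := by
      rw [h1, map_add (ev x), ev_trace, evM_add, hD.ev_KK, hD.ev_TT, ← hτ1, hKΘ]
      congr 1
      simp only [map_sum, map_mul, ev_trace, evM_mul, hD.ev_KK, hD.ev_thb]
      refine Finset.sum_congr rfl fun a _ => Finset.sum_congr rfl fun b _ => ?_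
      rw [← evM_apply, hD.ev_GG, ← hD.thx_eq]
    have ht1 : ‖(t : ℂ)‖ ≤ 1 := by
      rw [Complex.norm_real, Real.norm_of_nonneg ht.1]
      exact ht.2
    have hKt : EB ((t : ℂ) • K x) β := ((hKb x).1.smul ht1).mono (by rw [one_mul])
    have h3 : ‖((t : ℂ) • K x + Θ x).trace‖ ≤ n * (β + β) := (hKt.add (hTb x)).trace
    have h4 : -(n * (β + β)) ≤ (((t : ℂ) • K x + Θ x).trace).re :=
      (neg_le_neg h3).trans (neg_le_of_abs_le (Complex.abs_re_le_norm _))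
    rw [h2, Complex.add_re, Complex.ofReal_re, mul_add]
    rw [← hSn x B Bi hs] at hτ2
    have h5 : n * β * -(n * (β + β)) ≤ n * β * (((t : ℂ) • K x + Θ x).trace).re :=
      mul_le_mul_of_nonneg_left h4 (by positivity)
    linarith
  have hgrad : ∀ (x : O) (B Bi : Mt n ℂ), Sq (K x)⁻¹ (K x) B Bi →
      (∑ i, ∑ j, (K x)⁻¹ j i * ev x (d i hD.SS) * conj (ev x (d j hD.SS))).re ≤
        2 * hD.S x * (fn hD.PN x).re := by
    intro x B Bi hs
    rw [hSn x B Bi hs, hPn x B Bi hs]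
    exact hs.grad (hD.thx x) (hD.Xx x) (hD.Yx x) _ (hD.ev_dS hs)
  have hS0 : ∀ x : O, 0 ≤ hD.S x := fun x => by
    obtain ⟨B, Bi, hs⟩ := hsq x
    rw [hSn x B Bi hs]; positivity
  have hP0 : ∀ x : O, 0 ≤ (fn hD.PN x).re := fun x => by
    obtain ⟨B, Bi, hs⟩ := hsq x
    rw [hPn x B Bi hs]; positivity
  have key := hCc (fun z => (K z)⁻¹) hD.S (fun z => n * β * (K z).trace.re)
    (fun z => (fn hD.PN z).re)
  have hmain : ∀ z ∈ Metric.closedBall p r, hD.S z ≤ Cc := by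
    refine key ?_ ?_ ?_ ?_ ?_ ?_ ?_ ?_ ?_ ?_
    · exact fun z hz => (hpd z hz).inv.posSemidef
    · exact fun z hz i j => ((hKb ⟨z, hz⟩).2 i j).trans hBβ
    · exact fun z hz => smooth_of_real hD.SS hD.S hSu ⟨z, hz⟩
    · exact fun z hz => contDiffAt_const.mul (smooth_of_real hD.KK.trace (fun y => (K y).trace.re) htr ⟨z, hz⟩)
    · exact fun z hz => hS0 ⟨z, hz⟩
    · exact fun z hz => hP0 ⟨z, hz⟩
    · intro z hz
      have h1 := (hKb ⟨z, hz⟩).1.trace
      have h2 : |(K z).trace.re| ≤ n * β := (Complex.abs_re_le_norm _).trans h1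
      rw [abs_mul, abs_of_nonneg (by positivity : 0 ≤ (n : ℝ) * β)]
      exact (mul_le_mul_of_nonneg_left h2 (by positivity)).trans hBT
    · intro z hz
      obtain ⟨B, Bi, hs⟩ := hsq ⟨z, hz⟩
      have h2 := herr ⟨z, hz⟩ B Bi hs
      have h3 := trace_cHess hD.GG hD.SS hD.S hSu ⟨z, hz⟩
      rw [hD.ev_GG] at h3
      have h4 : ev ⟨z, hz⟩ hD.PN = (((fn hD.PN z).re : ℝ) : ℂ) := (hPu ⟨z, hz⟩).symm
      rw [← h3, h4] at h2
      have h5 := (Complex.abs_re_le_norm _).trans h2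
      rw [Complex.sub_re, Complex.ofReal_re] at h5
      have h6 := neg_le_of_abs_le h5
      have h7 := hS0 ⟨z, hz⟩
      have h8 : (C1 + 1) * (1 + hD.S z) ≤ Bd * (hD.S z + 1) := by
        rw [add_comm 1 (hD.S z)]
        exact mul_le_mul_of_nonneg_right hBC (by simp only at h7; linarith)
      simp only at h6 h7 h8 ⊢
      linarith
    · intro z hz
      obtain ⟨B, Bi, hs⟩ := hsq ⟨z, hz⟩
      have h2 := hlap ⟨z, hz⟩ B Bi hs
      have h3 := trace_cHess hD.GG hD.KK.trace (fun y => (K y).trace.re) htr ⟨z, hz⟩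
      rw [hD.ev_GG] at h3
      have hsm : ContDiffAt ℝ 2 (fun y => (K y).trace.re) z :=
        (smooth_of_real hD.KK.trace (fun y => (K y).trace.re) htr ⟨z, hz⟩).of_le (WithTop.coe_le_coe.2 le_top)
      have h4 := Vale.Agent.P272.K.C2.cHess_const_mul (n * β) hsm
      rw [h4, Matrix.mul_smul, Matrix.trace_smul]
      rw [← h3] at h2
      rw [smul_eq_mul, Complex.re_ofReal_mul]
      linarith
    · intro z hz
      obtain ⟨B, Bi, hs⟩ := hsq ⟨z, hz⟩
      have h2 := hgrad ⟨z, hz⟩ B Bi hs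
      have h3 : ∀ i, dz i (fun y => ((hD.S y : ℝ) : ℂ)) z = ev ⟨z, hz⟩ (d i hD.SS) :=
        fun i => dz_of_real hD.SS hD.S hSu ⟨z, hz⟩ i
      simp only [h3]
      refine h2.trans ?_
      exact mul_le_mul_of_nonneg_right (mul_le_mul_of_nonneg_right hB2 (hS0 ⟨z, hz⟩))
        (hP0 ⟨z, hz⟩)
  have hzO : z ∈ O := Metric.closedBall_subset_ball hrR hz
  obtain ⟨B, Bi, hs⟩ := hsq ⟨z, hzO⟩
  have h1 : hD.S z ≤ Cc := hmain z hz
  have h2 : ‖Ph B Bi (hD.thx ⟨z, hzO⟩)‖ ≤ 1 + |Cc| := by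
    have h3 := hSn ⟨z, hzO⟩ B Bi hs
    simp only at h3
    rw [h3] at h1
    nlinarith [norm_nonneg (Ph B Bi (hD.thx ⟨z, hzO⟩)), le_abs_self Cc,
      sq_nonneg (‖Ph B Bi (hD.thx ⟨z, hzO⟩)‖ - 1)]
  have h3 := hs.entry_le hβ1 (hKb ⟨z, hzO⟩).2 (hKb ⟨z, hzO⟩).1 (hD.thx ⟨z, hzO⟩) k
  have h4 := (h3.mul (hKb ⟨z, hzO⟩).1) i j
  have h5 : dz k (fun y => K y i j) z = (hD.thx ⟨z, hzO⟩ k * K z) i j := hdK ⟨z, hzO⟩ k i j
  rw [h5]
  refine h4.trans ?_
  have h8 : (n : ℝ) * (β * (n * (n * (β * ‖Ph B Bi (hD.thx ⟨z, hzO⟩)‖) * β))) ≤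
      n * (β * (n * (n * (β * (1 + |Cc|)) * β))) := by gcongr
  gcongr

end Vale.Agent.P299.H835
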