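import Vale.Agent.P299.H835.Assembly
import Vale.Agent.P299.H835.C3
import Vale.Agent.P272.K.Asm.Final

/-! P299, package D0: the Calabi-Yau theorem, from the uniform `C⁰` estimate. -/

open scoped Manifold ContDiff ComplexOrder Topology

noncomputable section

namespace Vale.Agent.P299.H835

open Vale.Agent.P272.K

section
variable {n : ℕ} {X : Type} [TopologicalSpace X] [ChartedSpace (Cm n) X]
  [IsManifold (modelWithCornersSelf ℂ (Cm n)) ω X]

/-- `χ + i∂∂̄u` is a Kähler metric if it is positive. -/
theorem isKahler_addH {χ : Chart n X → Cm n → Matrix (Fin n) (Fin n) ℂ} (hχ : IsKahler χ)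
    {u : X → ℝ} (hu : SmoothFn (n := n) u) (hp : ∀ e x, At e x → (addH χ u e (e x)).PosDef) :
    IsKahler (addH χ u) where
  smooth e x h i j := by
    have := EST.smooth_addH hχ.toIsHermitian hu h.1 h.mem_target i j
    exact this
  posDef := hp
  change := N.isForm_addH hχ.toIsHermitian hu.c2Fn
  closed e x h i j k := EST.closed_addH hχ hu h.1 h.mem_target i j k

variable [CompactSpace X] [T2Space X]

/-- **The Calabi-Yau theorem** from the `C⁰` estimate. -/
theorem yau_of_c0 (hC0 : C0Statement n X) : YauStatement n X :=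
  yau_of (aubinYau n X) hC0 calabi

/-- A Kähler metric with prescribed Ricci form: `log det (χ + i∂∂̄u) = φ + c` in every chart, for
the weights `φ` of a smooth metric on the canonical bundle. -/
theorem yauMetric_of (hY : YauStatement n X) {χ : Chart n X → Cm n → Matrix (Fin n) (Fin n) ℂ}
    (hχ : IsKahler χ) {φ : Chart n X → Cm n → ℝ} (hφ : IsCanonicalMetric φ) :
    ∃ (u : X → ℝ) (c : ℝ), SmoothFn (n := n) u ∧ IsKahler (addH χ u) ∧
      (∀ e ∈ atlas (Cm n) X, ∀ z ∈ e.target, Real.log (addH χ u e z).det.re = φ e z + c) ∧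
      ∀ e x, At e x → cHess (fun y => Real.log (addH χ u e y).det.re) (e x) =
        cHess (φ e) (e x) := by
  obtain ⟨u, c, hu, hp, he⟩ := hY χ hχ (ricPot χ φ) (smoothFn_ricPot hχ.toIsHermitian hφ)
  have key : ∀ e ∈ atlas (Cm n) X, ∀ z ∈ e.target,
      Real.log (addH χ u e z).det.re = φ e z + c := by
    intro e he' z hz
    have hAt := At.of_target he' hz
    have h1 := he e _ hAt
    rw [ricPot_eq hχ.toIsHermitian hφ hAt, e.right_inv hz] at h1
    linarith
  refine ⟨u, c, hu, isKahler_addH hχ hu hp, key, fun e x h => ?_⟩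
  have h1 : (fun y => Real.log (addH χ u e y).det.re) =ᶠ[𝓝 (e x)] fun y => φ e y + c := by
    filter_upwards [h.nhds_target] with z hz
    exact key e h.1 z hz
  rw [C2.cHess_congr h1, C2.cHess_add ((hφ.smooth e x h).of_le (by norm_cast)) contDiffAt_const,
    N.cHess_const, add_zero]

end

end Vale.Agent.P299.H835
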