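import Vale.Agent.P299.H835.Compact

/-! P299, package D0: the Calabi-Yau theorem from the `C⁰` estimate and the Calabi estimate. -/

open scoped Manifold ContDiff ComplexOrder Topology NNReal
open Complex Filter Metric Set

set_option maxSynthPendingDepth 3

noncomputable section

namespace Vale.Agent.P299.H835

open Vale.Agent.P272.K Vale.Agent.P272.K.LIN Vale.Agent.P272.K.N

section
variable {n : ℕ} {X : Type} [TopologicalSpace X] [ChartedSpace (Cm n) X]
  [IsManifold (modelWithCornersSelf ℂ (Cm n)) ω X] [CompactSpace X] [T2Space X]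

/-- the determinant is continuous on `C^{2,α}(X)` -/
theorem tendsto_det {𝒞 : Cov (Cm n) X} {α : ℝ} {V : Type} [NormedAddCommGroup V] [NormedSpace ℝ V]
    (D : C2Data 𝒞 α V) {χ : Chart n X → Cm n → Matrix (Fin n) (Fin n) ℂ} {v : ℕ → V} {v0 : V}
    (hv : Tendsto v atTop (𝓝 v0)) {i : Fin 𝒞.N} {x : X} (hx : x ∈ (𝒞.e i).source)
    (hi : 𝒞.e i x ∈ closedBall (𝒞.c i) (2 * 𝒞.r i)) :
    Tendsto (fun k => (addH χ (D.I (v k) : X → ℝ) (𝒞.e i) (𝒞.e i x)).det.re) atTop
      (𝓝 (addH χ (D.I v0 : X → ℝ) (𝒞.e i) (𝒞.e i x)).det.re) := by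
  have h1 : Continuous fun u : V => (χ (𝒞.e i) (𝒞.e i x) + lev (D.J i u x)).det.re := by
    refine Complex.continuous_re.comp ?_
    refine Continuous.matrix_det ?_
    refine continuous_const.add ?_
    refine continuous_matrix fun j k => ?_
    exact (contDiff_lev j k).continuous.comp ((Hol.continuous_eval x).comp (D.J i).continuous)
  have h2 := (h1.tendsto v0).comp hv
  simp only [← D.addH_eq (χ := χ) _ hx hi] at h2
  exact h2

/-- regularity and equation for the limit -/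
theorem limit_sol {𝒞 : Cov (Cm n) X} {α : ℝ} {V : Type} [NormedAddCommGroup V] [NormedSpace ℝ V]
    (D : C2Data 𝒞 α V) (h0 : 0 < α) (hReg : RegStatement (Cm n) α)
    {χ : Chart n X → Cm n → Matrix (Fin n) (Fin n) ℂ} (hχ : IsHermitian χ) {F : X → ℝ}
    (hF : SmoothFn (n := n) F) {v : ℕ → V} {v0 : V} (hv : Tendsto v atTop (𝓝 v0))
    {t c : ℕ → ℝ} {c0 M₀ : ℝ} (ht : Tendsto t atTop (𝓝 0)) (hc : Tendsto c atTop (𝓝 c0))
    (hb : ∀ k x, |D.I (v k) x| ≤ M₀)
    (hsol : ∀ k, IsSol (n := n) χ F (t k) (c k) (D.I (v k) : X → ℝ)) (hp : v0 ∈ posSet D χ) :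
    ∃ (u : X → ℝ) (c : ℝ), SmoothFn (n := n) u ∧ (∀ e x, At e x → (addH χ u e (e x)).PosDef) ∧
      ∀ e x, At e x →
        Real.log (addH χ u e (e x)).det.re - Real.log (χ e (e x)).det.re = F x + c := by
  have heq : ∀ e x, At e x →
      Real.log (addH χ (D.I v0 : X → ℝ) e (e x)).det.re - Real.log (χ e (e x)).det.re =
        F x + c0 := by
    intro e x h
    obtain ⟨i, hx, hi⟩ := 𝒞.cover x
    have hr := 𝒞.r_pos i
    have hi2 : 𝒞.e i x ∈ closedBall (𝒞.c i) (2 * 𝒞.r i) :=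
      closedBall_subset_closedBall (by linarith) (ball_subset_closedBall hi)
    have hAt : At (𝒞.e i) x := ⟨𝒞.mem i, hx⟩
    have hdet := tendsto_det D (χ := χ) hv hx hi2
    have hpos0 : 0 < (addH χ (D.I v0 : X → ℝ) (𝒞.e i) (𝒞.e i x)).det.re :=
      (Complex.pos_iff.1 (hp _ _ hAt).det_pos).1
    have h1 := (hdet.log hpos0.ne').sub_const (Real.log (χ (𝒞.e i) (𝒞.e i x)).det.re)
    have h2 : Tendsto (fun k => t k * D.I (v k) x + F x + c k) atTop (𝓝 (0 + F x + c0)) := by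
      have h3 : Tendsto (fun k => t k * D.I (v k) x) atTop (𝓝 0) := by
        refine squeeze_zero_norm (a := fun k => |t k| * M₀) (fun k => ?_) ?_
        · rw [norm_mul, Real.norm_eq_abs, Real.norm_eq_abs]
          exact mul_le_mul_of_nonneg_left (hb k x) (abs_nonneg _)
        · have := (ht.abs).mul_const M₀
          simpa using this
      exact (h3.add_const _).add hc
    have h3 : (fun k => Real.log (addH χ (D.I (v k) : X → ℝ) (𝒞.e i) (𝒞.e i x)).det.re -
        Real.log (χ (𝒞.e i) (𝒞.e i x)).det.re) = fun k => t k * D.I (v k) x + F x + c k :=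
      funext fun k => (hsol k).eq _ _ hAt
    rw [h3] at h1
    have h4 := tendsto_nhds_unique h1 h2
    have h5 : 0 < (χ (𝒞.e i) (𝒞.e i x)).det.re :=
      (Complex.pos_iff.1 (hχ.posDef _ _ hAt).det_pos).1
    have h6 : 0 < (addH χ (D.I v0 : X → ℝ) e (e x)).det.re :=
      (Complex.pos_iff.1 (hp _ _ h).det_pos).1
    have h7 : 0 < (χ e (e x)).det.re := (Complex.pos_iff.1 (hχ.posDef _ _ h).det_pos).1
    rw [← Real.log_div h6.ne' h7.ne', det_ratio hχ (D.c2Fn v0) h hAt,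
      Real.log_div hpos0.ne' h5.ne', h4, zero_add]
  have hFc : SmoothFn (n := n) fun x => F x + c0 := fun e x h => (hF e x h).add contDiffAt_const
  exact ⟨D.I v0, c0, smoothFn_of_solution0 hReg hχ hFc (D.c2Fn v0) (local_holder D h0 v0) hp heq,
    hp, heq⟩

/-- **The Calabi-Yau theorem**, from the uniform `C⁰` estimate and the Calabi estimate. -/
theorem yau_of (hAY : AubinYau n X) (hC0 : C0Statement n X) (hC3 : CalabiStatement) :
    YauStatement n X := by
  intro χ hχ F hF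
  obtain ⟨𝒞⟩ := Cov.nonempty (Cm n) X
  have h0 : (0 : ℝ) < 1 / 3 := by norm_num
  have h1 : (1 / 3 : ℝ) ≤ 1 := by norm_num
  have : CompleteSpace (𝒞.C2 (1 / 3 : ℝ)) := 𝒞.completeSpace_C2 h0
  obtain ⟨M₀, hM₀, hpath⟩ := exists_path hAY hC0 hχ hF
  choose c w hc hw hsol using fun k : ℕ => hpath (1 / ((k : ℝ) + 1)) (by positivity)
  obtain ⟨⟨δ, hδ, hEc⟩, hEb⟩ := est hC3 χ hχ F hF M₀ (2 / 3) (by norm_num) (by norm_num)
  obtain ⟨R, hR, hRt⟩ := exists_radii (𝒞 := 𝒞)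
  choose Mi hMi using fun i => hEb (𝒞.e i) (𝒞.mem i) (𝒞.c i) (R i) (hRt i)
  obtain ⟨M, hM0, hM⟩ := Cov.exists_le_all Mi
  have ht : ∀ k : ℕ, 1 / ((k : ℝ) + 1) ∈ Set.Icc (0 : ℝ) 1 := fun k => by
    have hk : (0 : ℝ) ≤ k := Nat.cast_nonneg k
    refine ⟨by positivity, ?_⟩
    rw [div_le_one (by positivity)]
    linarith
  have hck : ∀ k, CkFn (Cm n) ∞ (w k) := fun k => smoothFn_iff.1 (hsol k).smooth
  have hck2 : ∀ k, CkFn (Cm n) 2 (w k) := fun k => (hck k).of_le (by norm_cast)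
  have hck3 : ∀ k, CkFn (Cm n) 3 (w k) := fun k => (hck k).of_le (by norm_cast)
  have hbd : ∀ k i, ∀ y ∈ closedBall (𝒞.c i) (R i), ∀ y' ∈ closedBall (𝒞.c i) (R i),
      ‖fderiv ℝ (fderiv ℝ fun z => w k ((𝒞.e i).symm z)) y -
        fderiv ℝ (fderiv ℝ fun z => w k ((𝒞.e i).symm z)) y'‖ ≤ M * ‖y - y'‖ ^ (2 / 3 : ℝ) := by
    intro k i y hy y' hy'
    refine (hMi i _ (ht k) (c k) (hc k) (w k) (hw k) (hsol k) y hy y' hy').trans ?_
    exact mul_le_mul_of_nonneg_right (hM i) (by positivity)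
  have hI : InterpStatement 𝒞 (1 / 3) (2 / 3) :=
    interpStatement 𝒞 h0 (by norm_num) (by norm_num)
  obtain ⟨L, hL0, hL⟩ := exists_modulus 𝒞 hI hR hRt hM0 hM₀
  have hcont : ∀ k, Continuous (w k) := fun k => ckFn_continuous (hck k)
  obtain ⟨φ, hφ, ⟨c0, hc0⟩, hcau⟩ := exists_subseq 𝒞 h0 hcont hw hc
    fun k => hL (w k) (hck2 k) (hw k) (hbd k)
  let D := c2Data 𝒞 (1 / 3 : ℝ)
  let v : ℕ → 𝒞.C2 (1 / 3 : ℝ) := fun k => 𝒞.ofSmooth h0 h1 (w (φ k)) (hck3 _)
  have hvI : ∀ k, (D.I (v k) : X → ℝ) = w (φ k) := fun k => rfl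
  obtain ⟨C, hN⟩ := normCrit 𝒞 (α := 1 / 3)
  have hcs : CauchySeq v := by
    rw [Metric.cauchySeq_iff]
    intro ε hε
    obtain ⟨ε1, hε1, hint⟩ := hI R hR hRt (2 * M) (ε / (2 * (|C| + 1))) (by positivity)
    obtain ⟨N, hNN⟩ := hcau ε1 hε1
    refine ⟨N, fun k hk l hl => ?_⟩
    have hIsub : ∀ x, D.I (v k - v l) x = w (φ k) x - w (φ l) x := fun x => by
      rw [map_sub, Hol.sub_apply]
      rfl
    have h2 := hint (fun x => D.I (v k - v l) x) (D.ck2 _) (fun x => by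
      rw [hIsub]
      exact hNN k hk l hl x) (fun i y hy y' hy' => by
      have e1 : ∀ y ∈ closedBall (𝒞.c i) (R i),
          fderiv ℝ (fderiv ℝ fun z => (D.I (v k - v l) : X → ℝ) ((𝒞.e i).symm z)) y =
          fderiv ℝ (fderiv ℝ fun z => w (φ k) ((𝒞.e i).symm z)) y -
          fderiv ℝ (fderiv ℝ fun z => w (φ l) ((𝒞.e i).symm z)) y := by
        intro y hy
        have h3 := (hck2 (φ k)).at_target (𝒞.mem i) (hRt i hy)
        have h4 := (hck2 (φ l)).at_target (𝒞.mem i) (hRt i hy)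
        rw [← fderiv2_sub h3 h4]
        have : (fun z => (D.I (v k - v l) : X → ℝ) ((𝒞.e i).symm z)) =
          fun z => w (φ k) ((𝒞.e i).symm z) - w (φ l) ((𝒞.e i).symm z) :=
          funext fun z => hIsub _
        rw [this]
      rw [e1 y hy, e1 y' hy']
      have h5 := hbd (φ k) i y hy y' hy'
      have h6 := hbd (φ l) i y hy y' hy'
      rw [sub_sub_sub_comm]
      refine (norm_sub_le _ _).trans ?_
      linarith)
    obtain ⟨a1, a2, a3⟩ := h2
    have h9 := hN (v k - v l) (ε / (2 * (|C| + 1))) (by positivity) a1 a2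
      (fun i x => (a3 i).1 x) (fun i x y => (a3 i).2 x y)
    rw [dist_eq_norm]
    refine (h9.trans (mul_le_mul_of_nonneg_right (le_abs_self C) (by positivity))).trans_lt ?_
    rw [← mul_div_assoc, div_lt_iff₀ (by positivity)]
    have := abs_nonneg C
    nlinarith
  obtain ⟨v0, hv0⟩ := cauchySeq_tendsto_of_complete hcs
  have hpos : v0 ∈ posC D χ δ := by
    refine (isClosed_posC D δ).mem_of_tendsto hv0 (Eventually.of_forall fun k => ?_)
    intro i x hx hi ξ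
    have hr := 𝒞.r_pos i
    have h2 := hEc _ (ht (φ k)) _ (hc (φ k)) _ (hw (φ k)) (hsol (φ k)) (𝒞.e i) x ⟨𝒞.mem i, hx⟩
    have h3 := quad_nonneg h2 ξ
    rw [N.quad_sub, quad_smul_mat, Complex.sub_re, Complex.re_ofReal_mul, ← hvI k,
      D.addH_eq (v k) hx (closedBall_subset_closedBall (by linarith) hi)] at h3
    linarith
  have hpos' := posC_subset D hχ.toIsHermitian hδ hpos
  have htl : Tendsto (fun k => 1 / (((φ k : ℕ) : ℝ) + 1)) atTop (𝓝 0) :=
    tendsto_one_div_add_atTop_nhds_zero_nat.comp hφ.tendsto_atTop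
  exact limit_sol D h0 (Vale.Agent.P272.K.R.reg (Cm n) (by norm_num) (by norm_num)) hχ.toIsHermitian hF hv0 htl hc0
    (fun k => hw (φ k)) (fun k => hsol (φ k)) hpos'

end

end Vale.Agent.P299.H835
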