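import Vale.Agent.P299.H835.Iface
import Vale.Agent.P272.K.C2.Main

/-! P299, package D0-b: the Laplacian estimate for `log (det (χ + i∂∂̄u) / det χ) = t u + F + c`,
uniform in `t ∈ [0,1]`. -/

open scoped Manifold ContDiff ComplexOrder Topology Matrix
open MeasureTheory

noncomputable section

namespace Vale.Agent.P299.H835

open Vale.Agent.P272.K Vale.Agent.P272.K.C2

section pointwise
variable {n : ℕ} [NeZero n] {G H : Cm n → Matrix (Fin n) (Fin n) ℂ} {z : Cm n}

/-- Pointwise Chern–Lu inequality for `Ric = -s G - Θ`, `s ≤ 1`. -/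
theorem chernLu_ineq' (hG : MC 2 G z) (hH : MC 2 H z) (hGp : ∀ᶠ y in 𝓝 z, (G y).PosDef)
    (hHp : ∀ᶠ y in 𝓝 z, (H y).PosDef)
    (hK : ∀ᶠ y in 𝓝 z, ∀ i j k, dz k (fun y => G y i j) y = dz i (fun y => G y k j) y)
    {M : ℝ} (hM : 0 ≤ M) {Θ : Matrix (Fin n) (Fin n) ℂ} {s : ℝ} (hs : s ≤ 1)
    (hric : cHess (fun y => Real.log (G y).det.re) z = (s : ℂ) • G z + Θ)
    (hR : ∀ k l i j, ‖RM k l H z i j‖ ≤ M) (hΘ : ∀ i j, ‖Θ i j‖ ≤ M) (hHM : ∀ i j, ‖H z i j‖ ≤ M)
    (hHi : ((H z)⁻¹).trace.re ≤ M) :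
    -1 - (n ^ 4 * M ^ 3 * (1 + M)) * tau G H z ≤
      ((G z)⁻¹ * cHess (fun y => Real.log (tau G H y)) z).trace.re := by
  obtain ⟨C, hC⟩ := chernLu hG hH hGp hHp hK
  have hGz := hGp.self_of_nhds
  have hHz := hHp.self_of_nhds
  set P := (G z)⁻¹ with hP
  set t := tau G H z with ht
  have tpos : 0 < t := trace_re_pos hGz hHz
  have htdef : t = (P * H z).trace.re := rfl
  have hPp : P.PosSemidef := hGz.inv.posSemidef
  have hPle : ∀ i j, ‖P i j‖ ≤ M * t := fun i j =>
    (norm_entry_le_trace hPp i j).trans (trace_le_trace_mul hPp hHz hHi)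
  have hMt : 0 ≤ M * t := mul_nonneg hM tpos.le
  have hn1 : (1 : ℝ) ≤ n := by
    exact_mod_cast Nat.one_le_iff_ne_zero.2 (NeZero.ne n)
  -- the three terms
  have h1 : 0 ≤ (∑ l, ∑ k, P l k * (C k * (H z)⁻¹ * (C l)ᴴ * P).trace).re := by
    have := sum_trace_nonneg hPp hPp hHz.inv.posSemidef C
    rw [Complex.le_def] at this
    simpa using this.1
  have h2 : ‖∑ l, ∑ k, P l k * (P * RM k l H z).trace‖ ≤ n ^ 4 * (M ^ 3 * t ^ 2) := by
    calc ‖∑ l, ∑ k, P l k * (P * RM k l H z).trace‖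
        ≤ ∑ l : Fin n, ‖∑ k, P l k * (P * RM k l H z).trace‖ := norm_sum_le _ _
      _ ≤ ∑ l : Fin n, ∑ k : Fin n, (M * t) * (n ^ 2 * (M * t * M)) := by
          refine Finset.sum_le_sum fun l _ => (norm_sum_le _ _).trans
            (Finset.sum_le_sum fun k _ => ?_)
          rw [norm_mul]
          exact mul_le_mul (hPle l k) (norm_trace_mul_le hMt hPle (hR k l)) (norm_nonneg _) hMt
      _ = n ^ 4 * (M ^ 3 * t ^ 2) := by
          simp only [Finset.sum_const, Finset.card_univ, Fintype.card_fin, nsmul_eq_mul]; ring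
  have h3 : (P * (-cHess (fun y => Real.log (G y).det.re) z) * P * H z).trace =
      -((s : ℂ) * (t : ℂ)) - (P * (Θ * (P * H z))).trace := by
    rw [hric]
    have hPG : P * G z = 1 :=
      Matrix.nonsing_inv_mul _ (isUnit_iff_ne_zero.2 (posDef_det_ne_zero hGz))
    have e : P * (-((s : ℂ) • G z + Θ)) * P * H z =
        -((s : ℂ) • (P * G z * P * H z)) - P * (Θ * (P * H z)) := by
      simp only [neg_add, Matrix.mul_add, Matrix.add_mul, Matrix.mul_neg, Matrix.neg_mul,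
        Matrix.mul_smul, Matrix.smul_mul, Matrix.mul_assoc, sub_eq_add_neg]
    rw [e, hPG, Matrix.one_mul, Matrix.trace_sub, Matrix.trace_neg, Matrix.trace_smul, htdef,
      trace_re_eq hGz hHz, smul_eq_mul]
  have h4 : ‖(P * (Θ * (P * H z))).trace‖ ≤ n ^ 4 * (M ^ 4 * t ^ 2) := by
    have a1 : ∀ i j, ‖(P * H z) i j‖ ≤ n * (M * t * M) := norm_mul_entry_le hMt hPle hHM
    have a2 : ∀ i j, ‖(Θ * (P * H z)) i j‖ ≤ n * (M * (n * (M * t * M))) :=
      norm_mul_entry_le hM hΘ a1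
    refine (norm_trace_mul_le hMt hPle a2).trans (le_of_eq ?_)
    ring
  have h5 := congrArg Complex.re hC
  rw [Complex.re_ofReal_mul, h3] at h5
  rw [← Complex.ofReal_mul] at h5
  simp only [Complex.add_re, Complex.sub_re, Complex.neg_re, Complex.ofReal_re] at h5
  have h6 := Complex.re_le_norm (∑ l, ∑ k, P l k * (P * RM k l H z).trace)
  have h7 := Complex.re_le_norm (P * (Θ * (P * H z))).trace
  have hst : s * t ≤ t := by nlinarith
  have h8 : t * (-1 - (n ^ 4 * M ^ 3 * (1 + M)) * t) ≤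
      t * (P * cHess (fun y => Real.log (tau G H y)) z).trace.re := by
    rw [h5]
    have : t * (-1 - (n ^ 4 * M ^ 3 * (1 + M)) * t) =
        -t - n ^ 4 * (M ^ 3 * t ^ 2) - n ^ 4 * (M ^ 4 * t ^ 2) := by ring
    rw [this]
    linarith
  exact le_of_mul_le_mul_left h8 tpos

end pointwise

section local_
variable {n : ℕ} {X : Type} [TopologicalSpace X] [ChartedSpace (Cm n) X]
variable {χ : Chart n X → Cm n → Matrix (Fin n) (Fin n) ℂ} {F u : X → ℝ} {t c : ℝ}

/-- the error term in the Ricci curvature -/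
def Tht (χ : Chart n X → Cm n → Matrix (Fin n) (Fin n) ℂ) (F : X → ℝ) (t : ℝ) (e : Chart n X)
    (z : Cm n) : Matrix (Fin n) (Fin n) ℂ :=
  cHess (fun y => Real.log (χ e y).det.re) z + cHess (fun y => F (e.symm y)) z - (t : ℂ) • χ e z

omit [ChartedSpace (Cm n) X] in
theorem Tht_eq (e : Chart n X) (z : Cm n) :
    Tht χ F t e z = Th χ F 1 e z + ((1 - t : ℝ) : ℂ) • χ e z := by
  rw [Tht, Th]
  push_cast
  rw [one_smul, sub_smul, one_smul]
  abel

/-- the solution as a solution of the equation of `K/C2` with another right-hand side -/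
theorem IsSol.toSol (hu : IsSol (n := n) χ F t c u) :
    Sol χ (fun x => t * u x + F x + c - u x) 1 u :=
  ⟨hu.smooth, hu.pos, fun e x h => by rw [hu.eq e x h]; ring⟩

theorem IsSol.ricci (hχ : IsHermitian χ) (hF : SmoothFn (n := n) F)
    (hu : IsSol (n := n) χ F t c u) {e : Chart n X} {x : X} (h : At e x) :
    cHess (fun y => Real.log (addH χ u e y).det.re) (e x) =
      (t : ℂ) • addH χ u e (e x) + Tht χ F t e (e x) := by
  have ev : (fun y => Real.log (addH χ u e y).det.re) =ᶠ[𝓝 (e x)]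
      fun y => (Real.log (χ e y).det.re + (t * u (e.symm y) + F (e.symm y))) + c := by
    filter_upwards [h.nhds_target] with y hy
    have := hu.eq e (e.symm y) (At.of_target h.1 hy)
    rw [e.right_inv hy] at this
    linarith
  have d1 : ContDiffAt ℝ 2 (fun y => Real.log (χ e y).det.re) (e x) := mc_log_det hχ h 2
  have d2 : ContDiffAt ℝ 2 (fun y => u (e.symm y)) (e x) :=
    (hu.smooth e x h).of_le (by norm_cast)
  have d3 : ContDiffAt ℝ 2 (fun y => F (e.symm y)) (e x) := (hF e x h).of_le (by norm_cast)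
  rw [C2.cHess_congr ev, C2.cHess_add (d1.add ((contDiffAt_const.mul d2).add d3)) contDiffAt_const,
    C2.cHess_add d1 ((contDiffAt_const.mul d2).add d3),
    C2.cHess_add (contDiffAt_const.mul d2) d3, C2.cHess_const_mul t d2, N.cHess_const, addH, Tht,
    smul_add]
  abel

/-- the differential inequality for a solution at a point where the data are bounded -/
theorem sol_ineq' [NeZero n] (hχ : IsKahler χ) (hF : SmoothFn (n := n) F) {M : ℝ} (hM : 0 ≤ M)
    (ht0 : 0 ≤ t) (ht1 : t ≤ 1) (hu : IsSol (n := n) χ F t c u) {e : Chart n X} {x : X}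
    (hb : Bd χ F M e x) :
    -1 - (n ^ 4 * (2 * M) ^ 3 * (1 + 2 * M)) * tau (addH χ u e) (χ e) (e x) ≤
      ((addH χ u e (e x))⁻¹ *
        cHess (fun y => Real.log (tau (addH χ u e) (χ e) y)) (e x)).trace.re := by
  have h := hb.at'
  have hH := hχ.toIsHermitian
  have hG : MC 2 (addH χ u e) (e x) := (mc_of_smooth hH h 2).add (mc_cHess hu.smooth h 2)
  have hK0 : ∀ᶠ y in 𝓝 (e x), ∀ i j k,
      dz k (fun y => χ e y i j) y = dz i (fun y => χ e y k j) y := by
    filter_upwards [h.nhds_target] with y hy i j k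
    have := hχ.closed e (e.symm y) (At.of_target h.1 hy) i j k
    rwa [e.right_inv hy] at this
  have hu3 : ∀ᶠ y in 𝓝 (e x), ContDiffAt ℝ 3 (fun z => u (e.symm z)) y := by
    have : ContDiffAt ℝ ((3 : ℕ) : WithTop ℕ∞) (fun y => u (e.symm y)) (e x) :=
      (hu.smooth e x h).of_le (nat_le_infty 3)
    exact this.eventually (by simp)
  have hχ1 : ∀ᶠ y in 𝓝 (e x), MC 1 (χ e) y :=
    MC.eventually (q := 1) (mc_of_smooth hH h 1)
  have hK : ∀ᶠ y in 𝓝 (e x), ∀ i j k,
      dz k (fun y => addH χ u e y i j) y = dz i (fun y => addH χ u e y k j) y := by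
    filter_upwards [hK0, hu3, hχ1] with y h1 h2 h3 i j k
    have one : (1 : WithTop ℕ∞) ≠ 0 := by norm_num
    have hd : ∀ a b, DifferentiableAt ℝ (fun y => cHess (fun z => u (e.symm z)) y a b) y :=
      fun a b => (contDiffAt_cHess (m := 1) h2 (by norm_num) a b).differentiableAt one
    have e1 : ∀ a b c, dz c (fun y => addH χ u e y a b) y =
        dz c (fun y => χ e y a b) y + dz c (fun y => cHess (fun z => u (e.symm z)) y a b) y :=
      fun a b c => dz_add c ((h3 a b).differentiableAt one) (hd a b)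
    rw [e1, e1, h1 i j k]
    congr 1
    have h4 : ContDiffAt ℝ 2 (dzb j fun z => ((u (e.symm z) : ℝ) : ℂ)) y :=
      contDiffAt_dzb j (contDiffAt_ofReal h2) (by norm_num)
    exact dz_dz_comm k i h4
  have hric := hu.ricci hH hF h
  refine chernLu_ineq' hG (mc_of_smooth hH h 2) (eventually_posDef hu.pos h)
    (eventually_posDef hH.posDef h) hK (by positivity) ht1 hric
    (fun k l i j => (hb.rm k l i j).trans (by linarith)) (fun i j => ?_)
    (fun i j => (hb.met i j).trans (by linarith)) (hb.inv.trans (by linarith))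
  rw [Tht_eq, Matrix.add_apply, Matrix.smul_apply, smul_eq_mul]
  refine (norm_add_le _ _).trans ?_
  have h1 := hb.th 1 zero_le_one le_rfl i j
  have h2 := hb.met i j
  rw [norm_mul, Complex.norm_real, Real.norm_of_nonneg (by linarith)]
  have h3 : (1 - t) * ‖χ e (e x) i j‖ ≤ 1 * ‖χ e (e x) i j‖ :=
    mul_le_mul_of_nonneg_right (by linarith) (norm_nonneg _)
  linarith

variable [IsManifold 𝓘(ℂ, Cm n) ω X]

/-- bound for `tr_{g'} χ` -/
theorem tauX_le' [CompactSpace X] [NeZero n] (hχ : IsKahler χ) (hF : SmoothFn (n := n) F)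
    {A M0 : ℝ} (hA : 0 ≤ A) (hM0 : ∀ x, |u x| ≤ M0)
    (hb : ∀ x, ∃ (e : Chart n X) (M : ℝ), 0 ≤ M ∧ n ^ 4 * (2 * M) ^ 3 * (1 + 2 * M) ≤ A ∧
      Bd χ F M e x)
    (ht0 : 0 ≤ t) (ht1 : t ≤ 1) (hu' : IsSol (n := n) χ F t c u) (x : X) :
    tauX χ u x ≤ (1 + (A + 1) * n) * Real.exp ((A + 1) * (2 * M0)) := by
  have hu := hu'.toSol
  have hH := hχ.toIsHermitian
  set Φ : X → ℝ := fun x => Real.log (tauX χ u x) - (A + 1) * u x with hΦ
  have hΦe : ∀ (e : Chart n X) (x : X), At e x → (fun z => Φ (e.symm z)) =ᶠ[𝓝 (e x)]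
      fun z => Real.log (tau (addH χ u e) (χ e) z) - (A + 1) * u (e.symm z) := by
    intro e x h
    filter_upwards [tauX_symm_eventually hH hu.smooth h] with z hz
    rw [hΦ]
    simp only [hz]
  have hlogC : ∀ (e : Chart n X) (x : X), At e x →
      ContDiffAt ℝ 2 (fun z => Real.log (tau (addH χ u e) (χ e) z)) (e x) := fun e x h =>
    (contDiffAt_tau hH hu h 2).log
      (trace_re_pos (hu.pos e x h) (hH.posDef e x h)).ne'
  have huC : ∀ (e : Chart n X) (x : X), At e x → ContDiffAt ℝ 2 (fun z => u (e.symm z)) (e x) :=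
    fun e x h => (hu.smooth e x h).of_le (by norm_cast)
  have hΦC2 : N.C2Fn (n := n) Φ := fun e x h =>
    ((hlogC e x h).sub (contDiffAt_const.mul (huC e x h))).congr_of_eventuallyEq (hΦe e x h)
  obtain ⟨x0, -, hx0⟩ := isCompact_univ.exists_isMaxOn ⟨x, Set.mem_univ x⟩
    hΦC2.continuous.continuousOn
  have hmax : ∀ y, Φ y ≤ Φ x0 := fun y => hx0 (Set.mem_univ y)
  obtain ⟨e, M, hM, hMA, hbd⟩ := hb x0
  have hAt := hbd.at'
  have hloc : IsLocalMax (fun z => Φ (e.symm z)) (e x0) := by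
    refine Filter.Eventually.of_forall fun z => ?_
    simp only [e.left_inv hAt.2]
    exact hmax _
  have h1 := N.neg_cHess_posSemidef (hΦC2 e x0 hAt) hloc
  have hGp := hu.pos e x0 hAt
  have hHp := hH.posDef e x0 hAt
  set P := (addH χ u e (e x0))⁻¹ with hP
  have hPp : P.PosSemidef := hGp.inv.posSemidef
  have h2 := trace_mul_nonneg hPp h1
  have h3 : cHess (fun z => Φ (e.symm z)) (e x0) =
      cHess (fun z => Real.log (tau (addH χ u e) (χ e) z)) (e x0) -
        ((A + 1 : ℝ) : ℂ) • cHess (fun z => u (e.symm z)) (e x0) := by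
    rw [C2.cHess_congr (hΦe e x0 hAt), C2.cHess_sub (hlogC e x0 hAt)
      (contDiffAt_const.mul (huC e x0 hAt)), C2.cHess_const_mul _ (huC e x0 hAt)]
  set τ := tau (addH χ u e) (χ e) (e x0) with ht
  have htpos : 0 < τ := trace_re_pos hGp hHp
  have h4 : (P * cHess (fun z => u (e.symm z)) (e x0)).trace.re = n - τ := by
    have e1 : cHess (fun z => u (e.symm z)) (e x0) = addH χ u e (e x0) - χ e (e x0) := by
      rw [addH]; abel
    rw [e1, Matrix.mul_sub, Matrix.nonsing_inv_mul _ (isUnit_iff_ne_zero.2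
      (posDef_det_ne_zero hGp)), Matrix.trace_sub, Matrix.trace_one, Complex.sub_re]
    simp [ht, tau, hP]
  have h5 := sol_ineq' hχ hF hM ht0 ht1 hu' hbd
  rw [← ht, ← hP] at h5
  rw [h3, Matrix.mul_neg, Matrix.trace_neg, Complex.le_def] at h2
  have h6 := h2.1
  rw [Complex.neg_re, Matrix.mul_sub, Matrix.trace_sub, Complex.sub_re, Matrix.mul_smul,
    Matrix.trace_smul, smul_eq_mul, Complex.re_ofReal_mul, h4, Complex.zero_re] at h6
  have h7 : n ^ 4 * (2 * M) ^ 3 * (1 + 2 * M) * τ ≤ A * τ :=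
    mul_le_mul_of_nonneg_right hMA htpos.le
  have h8 : τ ≤ 1 + (A + 1) * n := by nlinarith
  have hx0t : tauX χ u x0 = τ := tauX_eq hH hu.smooth hAt
  -- conclusion
  have h9 := hmax x
  simp only [hΦ] at h9
  rw [hx0t] at h9
  have hn : (0 : ℝ) ≤ n := Nat.cast_nonneg n
  have hpos1 : 0 < 1 + (A + 1) * (n : ℝ) := by positivity
  have h10 : Real.log τ ≤ Real.log (1 + (A + 1) * n) := Real.log_le_log htpos h8
  have h11 := abs_le.1 (hM0 x)
  have h12 := abs_le.1 (hM0 x0)
  have h13 : Real.log (tauX χ u x) ≤ Real.log (1 + (A + 1) * n) + (A + 1) * (2 * M0) := by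
    nlinarith
  have h14 := Real.exp_le_exp.2 h13
  rwa [Real.exp_log (tauX_pos hH hu x), Real.exp_add, Real.exp_log hpos1] at h14

omit [IsManifold 𝓘(ℂ, Cm n) ω X] in
theorem exists_uniform_bd' [CompactSpace X] (hχ : IsKahler χ) (hF : SmoothFn (n := n) F) :
    ∃ A : ℝ, 0 ≤ A ∧ ∀ x, ∃ (e : Chart n X) (M : ℝ), 0 ≤ M ∧
      n ^ 4 * (2 * M) ^ 3 * (1 + 2 * M) ≤ A ∧ Bd χ F M e x := by
  obtain ⟨A, hA, h⟩ := exists_uniform_bd hχ hF
  refine ⟨16 * A, by positivity, fun x => ?_⟩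
  obtain ⟨e, M, hM, hMA, hb⟩ := h x
  refine ⟨e, M, hM, ?_, hb⟩
  have h1 : (n : ℝ) ^ 4 * (2 * M) ^ 3 * (1 + 2 * M) ≤ 16 * (n ^ 4 * M ^ 3 * (1 + M)) := by
    have h2 : 0 ≤ (n : ℝ) ^ 4 * M ^ 3 := by positivity
    nlinarith
  linarith

end local_

/-- **The `C²` estimate** (D0-b). -/
theorem c2Statement (n : ℕ) (X : Type) [TopologicalSpace X] [ChartedSpace (Cm n) X]
    [IsManifold 𝓘(ℂ, Cm n) ω X] [CompactSpace X] : C2Statement n X := by
  intro χ hχ F hF M0
  rcases Nat.eq_zero_or_pos n with hn | hn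
  · subst hn
    refine ⟨1, one_pos, fun t _ c _ u _ _ e x _ => ⟨?_, ?_⟩⟩
    · rw [Subsingleton.elim ((((1 : ℝ) : ℂ) • addH χ u e (e x) - χ e (e x))) 0]
      exact Matrix.PosSemidef.zero
    · rw [Subsingleton.elim ((((1 : ℝ) : ℂ) • χ e (e x) - addH χ u e (e x))) 0]
      exact Matrix.PosSemidef.zero
  have : NeZero n := ⟨hn.ne'⟩
  obtain ⟨A, hA, hb⟩ := exists_uniform_bd' hχ hF
  have hH := hχ.toIsHermitian
  have hFc : N.C2Fn (n := n) F := hF.c2Fn
  obtain ⟨MF, hMF⟩ := isCompact_univ.exists_bound_of_continuousOn hFc.continuous.continuousOn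
  have hMF' : ∀ x, |F x| ≤ MF := fun x => hMF x (Set.mem_univ x)
  set C1 : ℝ := (1 + (A + 1) * n) * Real.exp ((A + 1) * (2 * M0)) with hC1
  have hC1pos : 0 < C1 := by positivity
  set D : ℝ := Real.exp (M0 + MF + M0) with hD
  set C2 : ℝ := n * (C1 ^ (n - 1) * D) with hC2
  have hC2nn : 0 ≤ C2 := by positivity
  refine ⟨C1 + C2, by linarith, fun t ht c hc u hM0 hu' e x hAt => ?_⟩
  have hu := hu'.toSol
  have hGp := hu'.pos e x hAt
  have hHp := hH.posDef e x hAt
  have htau : tauX χ u x ≤ C1 := tauX_le' hχ hF hA hM0 hb ht.1 ht.2 hu' x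
  have htx : tauX χ u x = ((addH χ u e (e x))⁻¹ * χ e (e x)).trace.re :=
    tauX_eq hH hu'.smooth hAt
  have k1 : ∀ (K : Matrix (Fin n) (Fin n) ℂ) (L : Matrix (Fin n) (Fin n) ℂ) (a b : ℝ),
      K.PosDef → a ≤ b → ((a : ℂ) • K - L).PosSemidef → ((b : ℂ) • K - L).PosSemidef := by
    intro K L a b hK hab h
    have h2 : (((b - a : ℝ) : ℂ) • K).PosSemidef :=
      hK.posSemidef.smul (by exact_mod_cast sub_nonneg.2 hab)
    have h3 := h2.add h
    have e1 : ((b - a : ℝ) : ℂ) • K + ((a : ℂ) • K - L) = (b : ℂ) • K - L := by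
      push_cast
      rw [sub_smul]
      abel
    rwa [e1] at h3
  have hS1 : (((tauX χ u x : ℝ) : ℂ) • addH χ u e (e x) - χ e (e x)).PosSemidef := by
    rw [htx, trace_re_eq hGp hHp]
    exact trace_smul_sub_posSemidef hGp hHp.posSemidef
  have hS1' := k1 _ _ _ _ hGp htau hS1
  refine ⟨k1 _ _ _ _ hGp (by linarith) hS1', ?_⟩
  -- the reverse bound
  have hdet : (addH χ u e (e x)).det.re ≤ D * (χ e (e x)).det.re := by
    have h1 := hu'.eq e x hAt
    have h2 : t * u x ≤ M0 := by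
      have : |t * u x| ≤ M0 := by
        rw [abs_mul, abs_of_nonneg ht.1]
        calc t * |u x| ≤ 1 * |u x| := mul_le_mul_of_nonneg_right ht.2 (abs_nonneg _)
          _ ≤ M0 := by rw [one_mul]; exact hM0 x
      exact (abs_le.1 this).2
    have h3 := abs_le.1 (hMF' x)
    have h4 := abs_le.1 hc
    have h5 : Real.log (addH χ u e (e x)).det.re ≤ M0 + MF + M0 + Real.log (χ e (e x)).det.re := by
      linarith
    have h6 := Real.exp_le_exp.2 h5
    rwa [Real.exp_log (det_re_pos hGp), Real.exp_add, Real.exp_log (det_re_pos hHp)] at h6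
  have h7 := trace_inv_mul_le hGp hHp hC1pos hS1' hdet
  rw [Fintype.card_fin] at h7
  have hS2 : ((((χ e (e x))⁻¹ * addH χ u e (e x)).trace.re : ℂ) • χ e (e x) -
      addH χ u e (e x)).PosSemidef := by
    rw [trace_re_eq hHp hGp]
    exact trace_smul_sub_posSemidef hHp hGp.posSemidef
  exact k1 _ _ _ _ hHp (by linarith) hS2

end Vale.Agent.P299.H835
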