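import Vale.Agent.P299.H835.Limit

/-! P299, package D0: compactness of the path. -/

open scoped Manifold ContDiff ComplexOrder Topology NNReal BoundedContinuousFunction
open Complex Filter Metric Set

set_option maxSynthPendingDepth 3

noncomputable section

namespace Vale.Agent.P299.H835

open Vale.Agent.P272.K Vale.Agent.P272.K.LIN Vale.Agent.P272.K.N

section
variable {n : ℕ} {X : Type} [TopologicalSpace X] [ChartedSpace (Cm n) X]
  [IsManifold (modelWithCornersSelf ℂ (Cm n)) ω X] [CompactSpace X] [T2Space X]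

/-- uniform Hölder continuity of functions with uniformly bounded second differences -/
theorem exists_modulus (𝒞 : Cov (Cm n) X) {α β : ℝ} (hI : InterpStatement 𝒞 α β)
    {R : Fin 𝒞.N → ℝ} (hR : ∀ i, 3 * 𝒞.r i < R i)
    (hRt : ∀ i, closedBall (𝒞.c i) (R i) ⊆ (𝒞.e i).target) {M M₀ : ℝ} (hM : 0 ≤ M)
    (hM₀ : 0 < M₀) :
    ∃ L : ℝ, 0 ≤ L ∧ ∀ f : X → ℝ, CkFn (Cm n) 2 f → (∀ x, |f x| ≤ M₀) →
      (∀ i, ∀ y ∈ closedBall (𝒞.c i) (R i), ∀ y' ∈ closedBall (𝒞.c i) (R i),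
        ‖fderiv ℝ (fderiv ℝ fun z => f ((𝒞.e i).symm z)) y -
          fderiv ℝ (fderiv ℝ fun z => f ((𝒞.e i).symm z)) y'‖ ≤ M * ‖y - y'‖ ^ β) →
      ∀ x y, |f x - f y| ≤ L * 𝒞.d x y ^ α := by
  obtain ⟨ε, hε, h⟩ := hI R hR hRt M 1 one_pos
  obtain ⟨l, hl0, hl1, hlε⟩ : ∃ l : ℝ, 0 < l ∧ l ≤ 1 ∧ l * M₀ ≤ ε := by
    refine ⟨min 1 (ε / M₀), by positivity, min_le_left _ _, ?_⟩
    calc min 1 (ε / M₀) * M₀ ≤ ε / M₀ * M₀ := mul_le_mul_of_nonneg_right (min_le_right _ _) hM₀.le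
      _ = ε := div_mul_cancel₀ _ hM₀.ne'
  refine ⟨l⁻¹, by positivity, fun f hf hfb hfh x y => ?_⟩
  have hd : ∀ i, ∀ y ∈ closedBall (𝒞.c i) (R i),
      fderiv ℝ (fderiv ℝ fun z => l * f ((𝒞.e i).symm z)) y =
        l • fderiv ℝ (fderiv ℝ fun z => f ((𝒞.e i).symm z)) y := by
    intro i y _
    have h1 : (fderiv ℝ fun z => l * f ((𝒞.e i).symm z)) =
        l • fderiv ℝ fun z => f ((𝒞.e i).symm z) := by
      have : (fun z => l * f ((𝒞.e i).symm z)) = l • fun z => f ((𝒞.e i).symm z) := rfl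
      rw [this, fderiv_const_smul_field]
    rw [h1, fderiv_const_smul_field]
    rfl
  have h2 := (h (fun x => l * f x) (fun e he x hx => contDiffAt_const.mul (hf e he x hx))
    (fun x => by
      rw [abs_mul, abs_of_pos hl0]
      exact (mul_le_mul_of_nonneg_left (hfb x) hl0.le).trans hlε)
    (fun i y hy y' hy' => by
      rw [hd i y hy, hd i y' hy', ← smul_sub, norm_smul, Real.norm_of_nonneg hl0.le]
      have h3 := hfh i y hy y' hy'
      have h4 : 0 ≤ M * ‖y - y'‖ ^ β := by positivity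
      calc l * _ ≤ l * (M * ‖y - y'‖ ^ β) := mul_le_mul_of_nonneg_left h3 hl0.le
        _ ≤ 1 * (M * ‖y - y'‖ ^ β) := mul_le_mul_of_nonneg_right hl1 h4
        _ = _ := one_mul _)).2.1 x y
  rw [← mul_sub, abs_mul, abs_of_pos hl0, one_mul] at h2
  rw [inv_mul_eq_div, le_div_iff₀ hl0, mul_comm]
  exact h2

theorem tendsto_mod (𝒞 : Cov (Cm n) X) {α : ℝ} (h0 : 0 < α) (L : ℝ) (x : X) :
    Tendsto (fun y => L * 𝒞.d y x ^ α) (𝓝 x) (𝓝 0) := by
  have hc : Continuous fun p : X × X => 𝒞.d p.1 p.2 := 𝒞.continuous_d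
  have hp : Continuous fun y : X => (y, x) := by fun_prop
  have h3 : Continuous fun y => 𝒞.d y x :=
    Continuous.comp (g := fun p : X × X => 𝒞.d p.1 p.2) (f := fun y => (y, x)) hc hp
  have h1 : Continuous fun y => 𝒞.d y x ^ α := h3.rpow_const fun y => Or.inr h0.le
  have h2 := (h1.const_mul L).tendsto x
  rwa [𝒞.d_self, Real.zero_rpow h0.ne', mul_zero] at h2

/-- a subsequence converging uniformly -/
theorem exists_subseq (𝒞 : Cov (Cm n) X) {α : ℝ} (h0 : 0 < α) {L M₀ : ℝ} {w : ℕ → X → ℝ}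
    {c : ℕ → ℝ} (hwc : ∀ k, Continuous (w k)) (hw : ∀ k x, |w k x| ≤ M₀) (hc : ∀ k, |c k| ≤ M₀)
    (hL : ∀ k x y, |w k x - w k y| ≤ L * 𝒞.d x y ^ α) :
    ∃ φ : ℕ → ℕ, StrictMono φ ∧ (∃ c0, Tendsto (fun k => c (φ k)) atTop (𝓝 c0)) ∧
      ∀ ε > 0, ∃ N, ∀ k ≥ N, ∀ l ≥ N, ∀ x, |w (φ k) x - w (φ l) x| ≤ ε := by
  let g : ℕ → X →ᵇ ℝ := fun k => BoundedContinuousFunction.mkOfCompact ⟨w k, hwc k⟩
  have hg : ∀ k x, g k x = w k x := fun k x => rfl
  have hK : IsCompact (closure (Set.range g)) := by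
    refine BoundedContinuousFunction.arzela_ascoli (Icc (-M₀) M₀) isCompact_Icc _ ?_ ?_
    · rintro f x ⟨k, rfl⟩
      exact abs_le.1 (hw k x)
    · intro x
      rw [Metric.equicontinuousAt_iff_right]
      intro ε hε
      have hcd := tendsto_mod 𝒞 h0 L x
      filter_upwards [hcd.eventually (gt_mem_nhds hε)] with y hy
      rintro ⟨f, k, rfl⟩
      simp only
      rw [Real.dist_eq, hg, hg]
      have h2 := hL k y x
      rw [abs_sub_comm]
      exact h2.trans_lt hy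
  have hK2 : IsCompact (closure (Set.range g) ×ˢ Icc (-M₀) M₀) := hK.prod isCompact_Icc
  obtain ⟨⟨g0, c0⟩, -, φ, hφ, hlim⟩ := hK2.tendsto_subseq (x := fun k => (g k, c k))
    fun k => ⟨subset_closure ⟨k, rfl⟩, abs_le.1 (hc k)⟩
  have hl1 : Tendsto (fun k => g (φ k)) atTop (𝓝 g0) :=
    (continuous_fst.tendsto _).comp hlim
  have hl2 : Tendsto (fun k => c (φ k)) atTop (𝓝 c0) :=
    (continuous_snd.tendsto _).comp hlim
  refine ⟨φ, hφ, ⟨c0, hl2⟩, fun ε hε => ?_⟩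
  obtain ⟨N, hN⟩ := Metric.cauchySeq_iff.1 hl1.cauchySeq ε hε
  refine ⟨N, fun k hk l hl x => ?_⟩
  have h1 := hN k hk l hl
  have h2 := (g (φ k)).dist_coe_le_dist (g := g (φ l)) x
  rw [Real.dist_eq, hg, hg] at h2
  exact h2.trans h1.le

end

end Vale.Agent.P299.H835
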