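import Vale.Agent.P299.H835.C2
import Vale.Agent.P272.K.EST.Main
import Vale.Agent.P272.K.IE.Final

/-! P299, package D0: interior `C^{2,β}` estimates for the path
`log (det (χ + i∂∂̄u) / det χ) = t u + F + c`, uniform in `t ∈ [0,1]`. -/

open scoped Manifold ContDiff ComplexOrder Topology
open Metric Filter

noncomputable section

namespace Vale.Agent.P299.H835

open Vale.Agent.P272.K Vale.Agent.P272.K.EST

variable {n : ℕ} {X : Type} [TopologicalSpace X] [ChartedSpace (Cm n) X]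

/-- The estimates consumed by the limit `t → 0`. -/
def EstStatement (n : ℕ) (X : Type) [TopologicalSpace X] [ChartedSpace (Cm n) X] : Prop :=
  ∀ (χ : Chart n X → Cm n → Matrix (Fin n) (Fin n) ℂ) (_ : IsKahler χ) (F : X → ℝ)
    (_ : SmoothFn (n := n) F) (M₀ : ℝ) (β : ℝ) (_ : 0 < β) (_ : β < 1),
    (∃ δ : ℝ, 0 < δ ∧ ∀ t ∈ Set.Icc (0 : ℝ) 1, ∀ c : ℝ, |c| ≤ M₀ → ∀ u : X → ℝ,
      (∀ x, |u x| ≤ M₀) → IsSol (n := n) χ F t c u →
      ∀ e x, At e x → (addH χ u e (e x) - (δ : ℂ) • χ e (e x)).PosSemidef) ∧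
    ∀ e ∈ atlas (Cm n) X, ∀ (p : Cm n) (R : ℝ), closedBall p R ⊆ e.target → ∃ M : ℝ,
      ∀ t ∈ Set.Icc (0 : ℝ) 1, ∀ c : ℝ, |c| ≤ M₀ → ∀ u : X → ℝ, (∀ x, |u x| ≤ M₀) →
        IsSol (n := n) χ F t c u →
        ∀ y ∈ closedBall p R, ∀ y' ∈ closedBall p R,
          ‖fderiv ℝ (fderiv ℝ fun z => u (e.symm z)) y -
            fderiv ℝ (fderiv ℝ fun z => u (e.symm z)) y'‖ ≤ M * ‖y - y'‖ ^ β

lemma Tht_eq' {χ : Chart n X → Cm n → Matrix (Fin n) (Fin n) ℂ} {F : X → ℝ} {t : ℝ}
    (e : Chart n X) (z : Cm n) :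
    Tht χ F t e z = EST.Th χ F 1 e z + ((1 - t : ℝ) : ℂ) • χ e z := by
  rw [Tht, EST.Th]
  push_cast
  rw [one_smul, sub_smul, one_smul]
  abel

/-- a bound for the twisting term and its first derivatives -/
lemma exists_Tht_bound {χ : Chart n X → Cm n → Matrix (Fin n) (Fin n) ℂ} (hχ : IsHermitian χ)
    {F : X → ℝ} (hF : SmoothFn (n := n) F) {e : Chart n X} (he : e ∈ atlas (Cm n) X)
    {K : Set (Cm n)} (hK : IsCompact K) (hKe : K ⊆ e.target) :
    ∃ C₀ : ℝ, 0 ≤ C₀ ∧ ∀ t ∈ Set.Icc (0 : ℝ) 1,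
      (∀ z ∈ K, ∀ i j, ContDiffAt ℝ ∞ (fun y => Tht χ F t e y i j) z) ∧
      (∀ z ∈ K, ∀ i j, ‖Tht χ F t e z i j‖ ≤ C₀) ∧
      (∀ z ∈ K, ∀ i j k, ‖dz k (fun y => Tht χ F t e y i j) z‖ ≤ C₀) := by
  obtain ⟨C, hC, h⟩ := exists_Th_bound hχ hF he hK hKe
  obtain ⟨h1, h2, h3⟩ := h 1 (by norm_num)
  have hχs : ∀ z ∈ e.target, ∀ i j, ContDiffAt ℝ ∞ (fun y => χ e y i j) z := fun z hz i j =>
    hχ.smooth_target he hz i j
  obtain ⟨A0, hA0, hA⟩ := exists_common_bound hK
    (fun (p : Fin n × Fin n) z => χ e z p.1 p.2)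
    (fun p z hz => (hχs z (hKe hz) p.1 p.2).continuousAt.continuousWithinAt)
  obtain ⟨A1, hA1, hA'⟩ := exists_common_bound hK
    (fun (p : (Fin n × Fin n) × Fin n) z => dz p.2 (fun y => χ e y p.1.1 p.1.2) z)
    (fun p z hz => (smooth_dz (hχs z (hKe hz) p.1.1 p.1.2) p.2).continuousAt.continuousWithinAt)
  have hent : ∀ t i j y, Tht χ F t e y i j =
      EST.Th χ F 1 e y i j + ((1 - t : ℝ) : ℂ) * χ e y i j := by
    intro t i j y
    rw [Tht_eq', Matrix.add_apply, Matrix.smul_apply, smul_eq_mul]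
  have hb : ∀ t ∈ Set.Icc (0 : ℝ) 1, ∀ (w : ℂ) (B : ℝ), ‖w‖ ≤ B →
      ‖((1 - t : ℝ) : ℂ) * w‖ ≤ B := by
    intro t ht w B hw
    rw [norm_mul, Complex.norm_real, Real.norm_of_nonneg (by linarith [ht.2])]
    have : (1 - t) * ‖w‖ ≤ 1 * ‖w‖ :=
      mul_le_mul_of_nonneg_right (by linarith [ht.1]) (norm_nonneg _)
    linarith
  refine ⟨C + A0 + A1, by positivity, fun t ht => ⟨?_, ?_, ?_⟩⟩
  · intro z hz i j
    simp only [hent]
    exact (h1 z hz i j).add (contDiffAt_const.mul (hχs z (hKe hz) i j))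
  · intro z hz i j
    rw [hent]
    have a1 := h2 z hz i j
    have a2 := hb t ht _ _ (hA (i, j) z hz)
    exact (norm_add_le _ _).trans (by simp only at a2; linarith)
  · intro z hz i j k
    simp only [hent]
    have e1 : DifferentiableAt ℝ (fun y => ((1 - t : ℝ) : ℂ) * χ e y i j) z :=
      (diffble_of_smooth (hχs z (hKe hz) i j)).const_mul _
    have e2 := dz_add (i := k) (diffble_of_smooth (h1 z hz i j)) e1
    have e3 := dz_const_mul (i := k) ((1 - t : ℝ) : ℂ) (diffble_of_smooth (hχs z (hKe hz) i j))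
    rw [e2, e3]
    have a1 := h3 z hz i j k
    have a2 := hb t ht _ _ (hA' ((i, j), k) z hz)
    exact (norm_add_le _ _).trans (by simp only at a2; linarith)

/-- **Assembly of the a priori estimates.** -/
theorem est [IsManifold 𝓘(ℂ, Cm n) ω X] [CompactSpace X] (hC3 : CalabiStatement) :
    EstStatement n X := by
  intro χ hχ F hF M₀ β hβ0 hβ1
  obtain ⟨C, hC0, hC⟩ := c2Statement n X χ hχ F hF M₀
  refine ⟨⟨1 / C, by positivity, fun t ht c hc u hM hu e x hx => ?_⟩, ?_⟩
  · have h1 := quad_nonneg (hC t ht c hc u hM hu e x hx).1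
    have h2 : (addH χ u e (e x) - ((1 / C : ℝ) : ℂ) • χ e (e x)) =
        (((1 : ℝ) : ℂ) • addH χ u e (e x) - ((1 / C : ℝ) : ℂ) • χ e (e x)) := by simp
    rw [h2, posSemidef_smul_sub_iff (hu.pos e x hx).isHermitian (hχ.posDef e x hx).isHermitian]
    intro ξ
    have h3 := h1 ξ
    rw [quad_sub, quad_smulM, Complex.sub_re, Complex.re_ofReal_mul] at h3
    rw [div_mul_eq_mul_div, div_le_iff₀ hC0]
    linarith
  intro e he p R hball
  rcases lt_or_ge R 0 with hR | hR
  · refine ⟨0, fun t ht c hc u hM hu y hy => ?_⟩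
    rw [closedBall_eq_empty.2 hR] at hy
    exact hy.elim
  obtain ⟨δ, hδ, hsub⟩ := (isCompact_closedBall p R).exists_cthickening_subset_open
    e.open_target hball
  rw [cthickening_closedBall hδ.le hR] at hsub
  -- radii `R < R1 < R2 < R3 = R + δ`
  have hK : IsCompact (closedBall p (δ + R)) := isCompact_closedBall _ _
  obtain ⟨lam, Lam, hlam, hell⟩ := exists_ellip hχ.toIsHermitian he hK hsub hC0
  obtain ⟨C₀, hC₀, hTh⟩ := exists_Tht_bound hχ.toIsHermitian hF he hK hsub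
  obtain ⟨C3, hC3'⟩ := hC3 n p (2 * δ / 3 + R) (δ + R) lam Lam C₀ (by positivity) (by linarith) hlam
  -- bounds for the reference metric
  have hχs : ∀ z ∈ e.target, ∀ i j, ContDiffAt ℝ ∞ (fun y => χ e y i j) z := fun z hz i j =>
    hχ.toIsHermitian.smooth_target he hz i j
  obtain ⟨A0, hA0, hA⟩ := exists_common_bound hK
    (fun (p : Fin n × Fin n) z => χ e z p.1 p.2)
    (fun p z hz => (hχs z (hsub hz) p.1 p.2).continuousAt.continuousWithinAt)
  obtain ⟨A1, hA1, hA'⟩ := exists_common_bound hK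
    (fun (p : (Fin n × Fin n) × Fin n) z => dz p.2 (fun y => χ e y p.1.1 p.1.2) z)
    (fun p z hz => (smooth_dz (hχs z (hsub hz) p.1.1 p.1.2) p.2).continuousAt.continuousWithinAt)
  set M : ℝ := |M₀| + (2 * |Lam| + A0) + (|C3| + A1) with hM
  obtain ⟨CI, hCI⟩ := IE.ie n p (δ / 3 + R) (2 * δ / 3 + R) β M (by positivity) (by linarith) hβ0 hβ1
  refine ⟨CI, fun t ht c hc u huM hu y hy y' hy' => ?_⟩
  have hb3 : ball p (δ + R) ⊆ closedBall p (δ + R) := ball_subset_closedBall
  have hpos : ∀ z ∈ e.target, (addH χ u e z).PosDef := fun z hz => by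
    have := hu.pos e (e.symm z) (At.of_target he hz)
    rwa [e.right_inv hz] at this
  have hlo : ∀ z ∈ e.target, ((C : ℂ) • addH χ u e z - χ e z).PosSemidef := fun z hz => by
    have := (hC t ht c hc u huM hu e (e.symm z) (At.of_target he hz)).1
    rwa [e.right_inv hz] at this
  have hup : ∀ z ∈ e.target, ((C : ℂ) • χ e z - addH χ u e z).PosSemidef := fun z hz => by
    have := (hC t ht c hc u huM hu e (e.symm z) (At.of_target he hz)).2
    rwa [e.right_inv hz] at this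
  have hE := hell u hpos hlo hup
  obtain ⟨t1, t2, t3⟩ := hTh t ht
  have hcal := hC3' t ht (fun z => addH χ u e z) (fun z => Tht χ F t e z)
    (fun z hz i j => smooth_addH hχ.toIsHermitian hu.smooth he (hsub (hb3 hz)) i j)
    (fun z hz => (hpos z (hsub (hb3 hz))).isHermitian)
    (fun z hz => (hE z (hb3 hz)).1) (fun z hz => (hE z (hb3 hz)).2)
    (fun z hz i j k => closed_addH hχ hu.smooth he (hsub (hb3 hz)) i j k)
    (fun z hz => by
      have := hu.ricci hχ.toIsHermitian hF (At.of_target he (hsub (hb3 hz)))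
      rwa [e.right_inv (hsub (hb3 hz))] at this)
    (fun z hz i j => t1 z (hb3 hz) i j) (fun z hz i j => t2 z (hb3 hz) i j)
    (fun z hz i j k => t3 z (hb3 hz) i j k)
  have hb2 : ball p (2 * δ / 3 + R) ⊆ closedBall p (2 * δ / 3 + R) := ball_subset_closedBall
  have hb23 : closedBall p (2 * δ / 3 + R) ⊆ closedBall p (δ + R) :=
    closedBall_subset_closedBall (by linarith)
  have hUs : ∀ z ∈ e.target, ContDiffAt ℝ ∞ (fun y => u (e.symm y)) z := fun z hz =>
    smoothFn_target hu.smooth he hz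
  have hdz : ∀ z ∈ ball p (2 * δ / 3 + R), ∀ i j k,
      ‖dz k (fun y => cHess (fun y => u (e.symm y)) y i j) z‖ ≤ M := by
    intro z hz i j k
    have hzt : z ∈ e.target := hsub (hb23 (hb2 hz))
    have h1 := hcal z (hb2 hz) i j k
    have h2 : dz k (fun y => addH χ u e y i j) z = dz k (fun y => χ e y i j) z +
        dz k (fun y => cHess (fun y => u (e.symm y)) y i j) z :=
      dz_add (diffble_of_smooth (hχs z hzt i j)) (diffble_of_smooth (smooth_cHess (hUs z hzt) i j))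
    have h3 := hA' ((i, j), k) z (hb23 (hb2 hz))
    simp only at h3
    have h4 : dz k (fun y => cHess (fun y => u (e.symm y)) y i j) z =
        dz k (fun y => addH χ u e y i j) z - dz k (fun y => χ e y i j) z := by rw [h2]; ring
    rw [h4]
    refine (norm_sub_le _ _).trans ?_
    have h5 := le_abs_self C3
    have h6 := abs_nonneg M₀
    have h7 := abs_nonneg Lam
    rw [hM]
    linarith
  refine hCI (fun z => u (e.symm z)) (fun z hz => hUs z (hsub (hb23 (hb2 hz)))) ?_ ?_ hdz ?_ y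
    (closedBall_subset_closedBall (by linarith) hy) y'
    (closedBall_subset_closedBall (by linarith) hy')
  · intro z hz
    have h1 := huM (e.symm z)
    have h2 := le_abs_self M₀
    have h7 := abs_nonneg Lam
    have h8 := abs_nonneg C3
    rw [hM]
    linarith
  · intro z hz i j
    have h1 := entry_le (hpos z (hsub (hb23 (hb2 hz)))).posSemidef (hE z (hb23 (hb2 hz))).2 i j
    have h3 := hA (i, j) z (hb23 (hb2 hz))
    simp only at h3
    have h4 : cHess (fun y => u (e.symm y)) z i j = addH χ u e z i j - χ e z i j := by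
      simp only [addH, Matrix.add_apply]; ring
    rw [h4]
    refine (norm_sub_le _ _).trans ?_
    have h5 := le_abs_self Lam
    have h6 := abs_nonneg M₀
    have h8 := abs_nonneg C3
    rw [hM]
    linarith
  · intro z hz i j k
    rw [dzb_cHess (hUs z (hsub (hb23 (hb2 hz)))) i j k, RCLike.norm_conj]
    exact hdz z hz j i k

end Vale.Agent.P299.H835
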