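import Vale.Agent.P299.H835.Path
import Vale.Agent.P272.K.N.Final
import Mathlib.Topology.ContinuousMap.Bounded.ArzelaAscoli

/-! P299, package D0: the limit `t → 0`, regularity of the limit. -/

open scoped Manifold ContDiff ComplexOrder Topology NNReal
open Complex Filter Metric Set

set_option maxSynthPendingDepth 3

noncomputable section

namespace Vale.Agent.P299.H835

open Vale.Agent.P272.K Vale.Agent.P272.K.LIN Vale.Agent.P272.K.N

section reg
variable {n : ℕ}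

/-- `(x, w, B) ↦ (x, 0, B)` -/
def forget (n : ℕ) : Cm n × ℝ × Bil n →L[ℝ] Cm n × ℝ × Bil n :=
  (ContinuousLinearMap.fst ℝ _ _).prod
    ((0 : Cm n × ℝ × Bil n →L[ℝ] ℝ).prod
      ((ContinuousLinearMap.snd ℝ ℝ (Bil n)).comp (ContinuousLinearMap.snd ℝ (Cm n) (ℝ × Bil n))))

theorem forget_apply (p : Cm n × ℝ × Bil n) : forget n p = (p.1, 0, p.2.2) := rfl

/-- regularity for `log det (χ + i∂∂̄w) - log det χ = f` -/
theorem contDiffAt_of_equation0 {α : ℝ} (hReg : RegStatement (Cm n) α)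
    {U : Set (Cm n)} (hU : IsOpen U) {χ : Cm n → Matrix (Fin n) (Fin n) ℂ} {f w : Cm n → ℝ}
    (hχ : ∀ z ∈ U, ∀ i j, ContDiffAt ℝ ∞ (fun z => χ z i j) z) (hχp : ∀ z ∈ U, (χ z).PosDef)
    (hf : ∀ z ∈ U, ContDiffAt ℝ ∞ f z) (hw : ∀ z ∈ U, ContDiffAt ℝ 2 w z)
    (hH : ∀ x ∈ U, ∃ r > 0, ∃ C : ℝ, ∀ y ∈ ball x r, ∀ z ∈ ball x r,
      ‖fderiv ℝ (fderiv ℝ w) y - fderiv ℝ (fderiv ℝ w) z‖ ≤ C * ‖y - z‖ ^ α)
    (hp : ∀ z ∈ U, (χ z + cHess w z).PosDef)
    (he : ∀ z ∈ U, Real.log (χ z + cHess w z).det.re - Real.log (χ z).det.re = f z) :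
    ∀ z ∈ U, ContDiffAt ℝ ∞ w z := by
  have hlev : ∀ z ∈ U, cHess w z = lev (fderiv ℝ (fderiv ℝ w) z) := fun z hz =>
    cHess_eq_lev (diffble2 (hw z hz))
  let d : Cm n × ℝ × Bil n → ℝ := fun p => (χ p.1 + lev p.2.2).det.re
  have hdc : ContinuousOn d (U ×ˢ Set.univ) := by
    intro p hp
    have h1 : ContinuousAt (fun p : Cm n × ℝ × Bil n => (χ p.1 + lev p.2.2).det) p := by
      simp only [Matrix.det_apply]
      refine tendsto_finsetSum _ fun σ _ => ?_
      refine Tendsto.const_smul ?_ _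
      refine tendsto_finsetProd _ fun i _ => ?_
      have h2 : ContinuousAt (fun p : Cm n × ℝ × Bil n => χ p.1 (σ i) i) p :=
        ContinuousAt.comp (g := fun z => χ z (σ i) i) (hχ p.1 hp.1 (σ i) i).continuousAt
          continuousAt_fst
      have h3 : ContinuousAt (fun p : Cm n × ℝ × Bil n => lev p.2.2 (σ i) i) p :=
        ((contDiff_lev (σ i) i).continuous.comp (continuous_snd.comp continuous_snd)).continuousAt
      exact h2.add h3
    exact (Complex.continuous_re.continuousAt.comp h1).continuousWithinAt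
  let V : Set (Cm n × ℝ × Bil n) := (U ×ˢ Set.univ) ∩ d ⁻¹' (Set.Ioi 0)
  have hV : IsOpen V := hdc.isOpen_inter_preimage (hU.prod isOpen_univ) isOpen_Ioi
  have hsm : ∀ p ∈ V, ContDiffAt ℝ ∞ (Phi χ f) (forget n p) := fun p hp =>
    contDiffAt_Phi (p := forget n p) (hχ p.1 hp.1.1) (hf p.1 hp.1.1)
      (Complex.pos_iff.1 (hχp p.1 hp.1.1).det_pos).1.ne' (ne_of_gt hp.2)
  have hmem : ∀ x ∈ U, (x, w x, fderiv ℝ (fderiv ℝ w) x) ∈ V := fun x hx => by
    refine ⟨⟨hx, Set.mem_univ _⟩, ?_⟩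
    show 0 < (χ x + lev (fderiv ℝ (fderiv ℝ w) x)).det.re
    rw [← hlev x hx]
    exact (Complex.pos_iff.1 (hp x hx).det_pos).1
  refine hReg U hU w hw hH V hV (fun p => Phi χ f (forget n p)) (fun p hp => ?_) hmem
    (fun x hx => ?_) fun x hx l hl => ?_
  · exact (hsm p hp).comp p (forget n).contDiff.contDiffAt
  · show Real.log (χ x + lev (fderiv ℝ (fderiv ℝ w) x)).det.re - Real.log (χ x).det.re -
      0 - f x = 0
    rw [← hlev x hx]
    linarith [he x hx]
  · have h1 : (χ x + lev (fderiv ℝ (fderiv ℝ w) x)).PosDef := by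
      rw [← hlev x hx]; exact hp x hx
    have h2 : HasFDerivAt (Phi χ f)
        (fderiv ℝ (Phi χ f) (forget n (x, w x, fderiv ℝ (fderiv ℝ w) x)))
        (forget n (x, w x, fderiv ℝ (fderiv ℝ w) x)) :=
      ((hsm _ (hmem x hx)).differentiableAt (by simp)).hasFDerivAt
    have h3 := h2.comp (x, w x, fderiv ℝ (fderiv ℝ w) x)
      (forget n).hasFDerivAt
    have h4 : fderiv ℝ (fun p => Phi χ f (forget n p)) (x, w x, fderiv ℝ (fderiv ℝ w) x) =
        (fderiv ℝ (Phi χ f) (forget n (x, w x, fderiv ℝ (fderiv ℝ w) x))).comp (forget n) :=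
      h3.fderiv
    rw [h4, ContinuousLinearMap.comp_apply, forget_apply (0, 0, l.smulRight l), forget_apply]
    rw [fderiv_Phi (p := (x, 0, fderiv ℝ (fderiv ℝ w) x)) (hχ x hx) (hf x hx)
      (Complex.pos_iff.1 (hχp x hx).det_pos).1.ne' h1]
    exact trace_inv_lev_pos h1 hl

variable {X : Type*} [TopologicalSpace X] [ChartedSpace (Cm n) X]
  [IsManifold (modelWithCornersSelf ℂ (Cm n)) ω X]

theorem smoothFn_of_solution0 {α : ℝ} (hReg : RegStatement (Cm n) α)
    {χ : Chart n X → Cm n → Matrix (Fin n) (Fin n) ℂ} (hχ : IsHermitian χ) {F u : X → ℝ}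
    (hF : SmoothFn (n := n) F) (hu : C2Fn (n := n) u)
    (hH : ∀ x : X, ∃ e : Chart n X, At e x ∧ ∃ r > 0, ∃ C : ℝ, ∀ y ∈ ball (e x) r, ∀ z ∈ ball (e x) r,
      ‖fderiv ℝ (fderiv ℝ fun z => u (e.symm z)) y - fderiv ℝ (fderiv ℝ fun z => u (e.symm z)) z‖
        ≤ C * ‖y - z‖ ^ α)
    (hp : ∀ e x, At e x → (addH χ u e (e x)).PosDef)
    (he : ∀ e x, At e x →
      Real.log (addH χ u e (e x)).det.re - Real.log (χ e (e x)).det.re = F x) :
    SmoothFn (n := n) u := by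
  intro e' x hx'
  obtain ⟨e, hx, r, hr, C, hC⟩ := hH x
  refine contDiffAt_of_chart hx hx' (by exact_mod_cast le_top) ?_
  have hU : IsOpen (ball (e x) r ∩ e.target) := isOpen_ball.inter e.open_target
  have hat : ∀ z ∈ ball (e x) r ∩ e.target, At e (e.symm z) ∧ e (e.symm z) = z := fun z hz =>
    ⟨At.of_target hx.1 hz.2, e.right_inv hz.2⟩
  refine contDiffAt_of_equation0 hReg hU (χ := χ e) (f := fun z => F (e.symm z))
    (fun z hz i j => ?_) (fun z hz => ?_) (fun z hz => ?_) (fun z hz => ?_) (fun z hz => ?_)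
    (fun z hz => ?_) (fun z hz => ?_) (e x) ⟨mem_ball_self hr, hx.mem_target⟩
  · have := hχ.smooth e _ (hat z hz).1 i j
    rwa [(hat z hz).2] at this
  · have := hχ.posDef e _ (hat z hz).1
    rwa [(hat z hz).2] at this
  · have := hF e _ (hat z hz).1
    rwa [(hat z hz).2] at this
  · have := hu e _ (hat z hz).1
    rwa [(hat z hz).2] at this
  · obtain ⟨δ, hδ, hsub⟩ := Metric.isOpen_iff.1 (isOpen_ball (x := e x) (ε := r)) z hz.1
    exact ⟨δ, hδ, C, fun y hy z' hz' => hC y (hsub hy) z' (hsub hz')⟩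
  · have := hp e _ (hat z hz).1
    rw [(hat z hz).2] at this
    exact this
  · have := he e _ (hat z hz).1
    rw [(hat z hz).2] at this
    exact this

end reg

end Vale.Agent.P299.H835
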