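import Vale.Agent.P299.H835.EST
import Vale.Agent.P272.K.N.Compare

/-! P299, package D0: the path `t → 0` of solutions, normalised. -/

open scoped Manifold ContDiff ComplexOrder Topology
open Metric Filter

noncomputable section

namespace Vale.Agent.P299.H835

open Vale.Agent.P272.K

section
variable {n : ℕ} {X : Type} [TopologicalSpace X]

/-- the metric `t χ` -/
def smulM (t : ℝ) (χ : Chart n X → Cm n → Matrix (Fin n) (Fin n) ℂ) :
    Chart n X → Cm n → Matrix (Fin n) (Fin n) ℂ := fun e z => (t : ℂ) • χ e z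

theorem det_smul_re (t : ℝ) (A : Matrix (Fin n) (Fin n) ℂ) :
    ((t : ℂ) • A).det.re = t ^ n * A.det.re := by
  rw [Matrix.det_smul, Fintype.card_fin, ← Complex.ofReal_pow, Complex.re_ofReal_mul]

variable [ChartedSpace (Cm n) X] {χ : Chart n X → Cm n → Matrix (Fin n) (Fin n) ℂ}

theorem isKahler_smulM {t : ℝ} (ht : 0 < t) (hχ : IsKahler χ) : IsKahler (smulM t χ) where
  smooth e x h i j := contDiffAt_const.mul (hχ.smooth e x h i j)
  posDef e x h := (hχ.posDef e x h).smul (by exact_mod_cast ht)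
  change e e' x h h' := by
    simp only [smulM]
    rw [hχ.change e e' x h h', Matrix.mul_smul, Matrix.smul_mul]
  closed e x h i j k := by
    have h1 : ∀ i j k, dz k (fun z => smulM t χ e z i j) (e x) =
        (t : ℂ) * dz k (fun z => χ e z i j) (e x) := fun i j k =>
      dz_const_mul (i := k) (t : ℂ) ((hχ.smooth e x h i j).differentiableAt (by simp))
    rw [h1, h1, hχ.closed e x h i j k]

theorem addH_sub_const {u : X → ℝ} (hu : SmoothFn (n := n) u) (a : ℝ) {e : Chart n X} {x : X}
    (h : At e x) : addH χ (fun x => u x - a) e (e x) = addH χ u e (e x) := by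
  have d2 : ContDiffAt ℝ 2 (fun y => u (e.symm y)) (e x) := (hu e x h).of_le (by norm_cast)
  simp only [addH]
  rw [C2.cHess_sub d2 contDiffAt_const, N.cHess_const, sub_zero]

theorem addH_const_mul {u : X → ℝ} (hu : SmoothFn (n := n) u) (t : ℝ) {e : Chart n X} {x : X}
    (h : At e x) : addH (smulM t χ) (fun x => t * u x) e (e x) = (t : ℂ) • addH χ u e (e x) := by
  have d2 : ContDiffAt ℝ 2 (fun y => u (e.symm y)) (e x) := (hu e x h).of_le (by norm_cast)
  simp only [addH, smulM]
  rw [C2.cHess_const_mul t d2, smul_add]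

/-- solution of the equation with parameter `t > 0` -/
theorem exists_sol_pos [CompactSpace X] (hAY : AubinYau n X) (hχ : IsKahler χ) {F : X → ℝ}
    (hF : SmoothFn (n := n) F) {t : ℝ} (ht : 0 < t) {M : ℝ} (hM : ∀ x, |F x| ≤ M) :
    ∃ u : X → ℝ, IsSol (n := n) χ F t 0 u ∧ ∀ x, |t * u x| ≤ M := by
  obtain ⟨v, hv, hvp, hve⟩ := hAY (smulM t χ) (isKahler_smulM ht hχ) F hF
  have hb := N.abs_le_of_solution (isKahler_smulM ht hχ).posDef hv.c2Fn hvp hve hM
  set u : X → ℝ := fun x => t⁻¹ * v x with hu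
  have huv : (fun x => t * u x) = v := by
    funext x
    rw [hu]
    field_simp
  have hus : SmoothFn (n := n) u := fun e x h => contDiffAt_const.mul (hv e x h)
  have hadd : ∀ (e : Chart n X) (x : X), At e x →
      addH (smulM t χ) v e (e x) = (t : ℂ) • addH χ u e (e x) := fun e x h => by
    rw [← addH_const_mul hus t h, huv]
  have hpos : ∀ e x, At e x → (addH χ u e (e x)).PosDef := fun e x h => by
    have h1 : addH χ u e (e x) = ((t⁻¹ : ℝ) : ℂ) • addH (smulM t χ) v e (e x) := by
      rw [hadd e x h, smul_smul, ← Complex.ofReal_mul, inv_mul_cancel₀ ht.ne', Complex.ofReal_one,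
        one_smul]
    rw [h1]
    exact (hvp e x h).smul (by exact_mod_cast inv_pos.2 ht)
  refine ⟨u, ⟨hus, hpos, fun e x h => ?_⟩, fun x => ?_⟩
  · have h1 := hve e x h
    have h2 : 0 < (addH χ u e (e x)).det.re := (Complex.pos_iff.1 (hpos e x h).det_pos).1
    have h3 : 0 < (χ e (e x)).det.re := (Complex.pos_iff.1 (hχ.posDef e x h).det_pos).1
    have h4 : (0 : ℝ) < t ^ n := by positivity
    rw [hadd e x h, det_smul_re, smulM, det_smul_re, Real.log_mul h4.ne' h2.ne',
      Real.log_mul h4.ne' h3.ne'] at h1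
    have h5 : t * u x = v x := congrFun huv x
    rw [h5]
    linarith
  · rw [show t * u x = v x from congrFun huv x]
    exact hb x

theorem IsSol.sub_const {F : X → ℝ} {t : ℝ} {u : X → ℝ} (hu : IsSol (n := n) χ F t 0 u) (a : ℝ) :
    IsSol (n := n) χ F t (t * a) (fun x => u x - a) where
  smooth e x h := (hu.smooth e x h).sub contDiffAt_const
  pos e x h := by
    rw [addH_sub_const hu.smooth a h]
    exact hu.pos e x h
  eq e x h := by
    rw [addH_sub_const hu.smooth a h, hu.eq e x h]
    ring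

/-- the normalised path -/
theorem exists_path [CompactSpace X] (hAY : AubinYau n X) (hC0 : C0Statement n X)
    (hχ : IsKahler χ) {F : X → ℝ} (hF : SmoothFn (n := n) F) :
    ∃ M₀ : ℝ, 0 < M₀ ∧ ∀ t : ℝ, 0 < t → ∃ (c : ℝ) (w : X → ℝ), |c| ≤ M₀ ∧ (∀ x, |w x| ≤ M₀) ∧
      IsSol (n := n) χ F t c w := by
  rcases isEmpty_or_nonempty X with hX | ⟨⟨x0⟩⟩
  · refine ⟨1, one_pos, fun t ht => ⟨0, fun _ => 0, by simp, fun x => hX.elim x, ?_⟩⟩
    exact ⟨fun e x => hX.elim x, fun e x => hX.elim x, fun e x => hX.elim x⟩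
  obtain ⟨M, hM⟩ := EST.exists_bound_of_smoothFn hF
  obtain ⟨C, hC⟩ := hC0 χ hχ (M + M)
  refine ⟨|M| + |C| + 1, by positivity, fun t ht => ?_⟩
  obtain ⟨u, hu, hub⟩ := exists_sol_pos hAY hχ hF ht hM
  refine ⟨t * u x0, fun x => u x - u x0, ?_, fun x => ?_, hu.sub_const (u x0)⟩
  · have := hub x0
    have h1 := le_abs_self M
    have h2 := abs_nonneg C
    linarith
  · have hosc := hC u hu.smooth hu.pos fun e x h => by
      rw [hu.eq e x h]
      have h1 := abs_le.1 (hub x)
      have h2 := abs_le.1 (hM x)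
      linarith
    have h1 := hosc x x0
    have h2 := hosc x0 x
    have h3 := le_abs_self C
    have h4 := abs_nonneg M
    rw [abs_le]
    constructor <;> linarith

end

end Vale.Agent.P299.H835
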